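import Mathlib

/-! Embeddings of partial graphs into a host graph, and their extensions. -/

set_option linter.unusedSectionVars false

namespace Vale.Agent.P064

open Finset

variable {α V : Type*} [Fintype α] [DecidableEq α] [Fintype V] [DecidableEq V]

/-- The data of the counting problem. -/
structure Setup (α V : Type*) where
  /-- A default vertex of the host. -/
  v0 : V
  /-- The edges of the pattern. -/
  DF : Finset (Sym2 α)
  /-- The edges of the host. -/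
  EH : Finset (Sym2 V)
  /-- The number of vertices of the ambient complete graph. -/
  n : ℕ
  /-- The edge density. -/
  q : ℝ

variable (C : Setup α V)

/-- The edges inside a vertex set. -/
def Setup.D (T : Finset α) : Finset (Sym2 α) := C.DF.filter fun e => e.toFinset ⊆ T

/-- The edges gained between two vertex sets. -/
def Setup.new (P T : Finset α) : Finset (Sym2 α) := C.D T \ C.D P

/-- Embeddings of the pattern restricted to `T`, extended by the default value. -/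
def Setup.emb (T : Finset α) : Finset (α → V) :=
  univ.filter fun f => (∀ a, a ∉ T → f a = C.v0) ∧ (∀ a ∈ T, ∀ b ∈ T, f a = f b → a = b)
    ∧ ∀ e ∈ C.D T, e.map f ∈ C.EH

/-- Extensions to `T` of a map on `P`. -/
def Setup.ext (P T : Finset α) (φ : α → V) : Finset (α → V) :=
  (C.emb T).filter fun g => ∀ a ∈ P, g a = φ a

/-- The restriction of a map. -/
def Setup.res (P : Finset α) (g : α → V) : α → V := fun a => if a ∈ P then g a else C.v0

/-- The hypothesis that no subgraph of the host is unlikely. -/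
structure Setup.Hyp : Prop where
  nn : 2 ≤ C.n
  q0 : 0 < C.q
  qe : Real.exp 1 * C.q ≤ 1
  hcard : Fintype.card V ≤ C.n
  ndF : ∀ e ∈ C.DF, ¬ e.IsDiag
  hyp : ∀ (A : Finset V) (E : Finset (Sym2 V)), E ⊆ C.EH → (∀ e ∈ E, ∀ a ∈ e, a ∈ A) →
    ∀ G : Finset (Equiv.Perm V), (∀ σ ∈ G, (∀ a ∈ A, σ a ∈ A) ∧ ∀ e ∈ E, e.map σ ∈ E) →
      (∀ σ ∈ G, ∀ τ ∈ G, (∀ a ∈ A, σ a = τ a) → σ = τ) →
      (G.card : ℝ) ≤ 2 * (C.n : ℝ) ^ A.card * C.q ^ E.card

variable {C}

lemma Setup.mem_D {T : Finset α} {e : Sym2 α} :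
    e ∈ C.D T ↔ e ∈ C.DF ∧ ∀ a ∈ e, a ∈ T := by
  simp [Setup.D, subset_iff, Sym2.mem_toFinset]

lemma Setup.D_mono {P T : Finset α} (h : P ⊆ T) : C.D P ⊆ C.D T := fun _ he =>
  mem_D.2 ⟨(mem_D.1 he).1, fun a ha => h ((mem_D.1 he).2 a ha)⟩

lemma Setup.mem_new {P T : Finset α} {e : Sym2 α} :
    e ∈ C.new P T ↔ e ∈ C.D T ∧ ∃ a ∈ e, a ∉ P := by
  simp only [Setup.new, mem_sdiff, mem_D]
  constructor
  · rintro ⟨⟨h1, h2⟩, h3⟩
    refine ⟨⟨h1, h2⟩, ?_⟩
    by_contra hc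
    simp only [not_exists, not_and, not_not] at hc
    exact h3 ⟨h1, hc⟩
  · rintro ⟨h, a, ha, haP⟩
    exact ⟨h, fun h' => haP (h'.2 a ha)⟩

lemma Setup.new_anti {P P' T : Finset α} (h : P ⊆ P') : C.new P' T ⊆ C.new P T :=
  sdiff_subset_sdiff subset_rfl (D_mono h)

lemma Setup.card_D_add {P T : Finset α} (h : P ⊆ T) :
    (C.D T).card = (C.D P).card + (C.new P T).card := by
  rw [Setup.new, card_sdiff_of_subset (D_mono h)]
  have := card_le_card (D_mono (C := C) h)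
  omega

lemma Setup.card_new_add {W P T : Finset α} (h : W ⊆ P) (h' : P ⊆ T) :
    (C.new W T).card = (C.new W P).card + (C.new P T).card := by
  have h1 := card_D_add (C := C) h
  have h2 := card_D_add (C := C) h'
  have h3 := card_D_add (C := C) (h.trans h')
  omega

lemma card_sdiff_add_sdiff {W P T : Finset α} (h : W ⊆ P) (h' : P ⊆ T) :
    (T \ W).card = (P \ W).card + (T \ P).card := by
  rw [card_sdiff_of_subset h, card_sdiff_of_subset h', card_sdiff_of_subset (h.trans h')]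
  have := card_le_card h
  have := card_le_card h'
  omega

lemma Setup.mem_emb {T : Finset α} {f : α → V} :
    f ∈ C.emb T ↔ (∀ a, a ∉ T → f a = C.v0) ∧ (∀ a ∈ T, ∀ b ∈ T, f a = f b → a = b)
      ∧ ∀ e ∈ C.D T, e.map f ∈ C.EH := by
  simp [Setup.emb]

lemma Setup.mem_ext {P T : Finset α} {φ g : α → V} :
    g ∈ C.ext P T φ ↔ g ∈ C.emb T ∧ ∀ a ∈ P, g a = φ a := by
  simp [Setup.ext]

lemma Setup.res_eq {P : Finset α} {g : α → V} {a : α} (ha : a ∈ P) : C.res P g a = g a :=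
  if_pos ha

lemma Setup.res_mem_emb {P T : Finset α} {g : α → V} (h : P ⊆ T) (hg : g ∈ C.emb T) :
    C.res P g ∈ C.emb P := by
  obtain ⟨-, h2, h3⟩ := mem_emb.1 hg
  refine mem_emb.2 ⟨fun a ha => if_neg ha, fun a ha b hb hab => ?_, fun e he => ?_⟩
  · simp only [Setup.res, if_pos ha, if_pos hb] at hab
    exact h2 a (h ha) b (h hb) hab
  · rw [Sym2.map_congr (g := g) fun a ha => res_eq ((mem_D.1 he).2 a ha)]
    exact h3 e (D_mono h he)

lemma Setup.map_injOn {T : Finset α} {g : α → V} (hg : g ∈ C.emb T) :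
    ∀ e ∈ C.D T, ∀ e' ∈ C.D T, e.map g = e'.map g → e = e' := by
  intro e he e' he' h
  have key : ∀ {e e' : Sym2 α}, e ∈ C.D T → e' ∈ C.D T → e.map g = e'.map g →
      ∀ a ∈ e, a ∈ e' := by
    intro e e' he he' h a ha
    have : g a ∈ e'.map g := h ▸ Sym2.mem_map.2 ⟨a, ha, rfl⟩
    obtain ⟨b, hb, hab⟩ := Sym2.mem_map.1 this
    have hba := (mem_emb.1 hg).2.1 b ((mem_D.1 he').2 b hb) a ((mem_D.1 he).2 a ha) hab
    rwa [← hba]
  exact Sym2.ext fun a => ⟨key he he' h a, key he' he h.symm a⟩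

lemma Setup.ext_eq_empty_or {P T : Finset α} {φ : α → V} :
    C.ext P T φ = ∅ ∨ ∃ g, g ∈ C.ext P T φ := (C.ext P T φ).eq_empty_or_nonempty

lemma Setup.ext_self_card (T : Finset α) (φ : α → V) : (C.ext T T φ).card ≤ 1 := by
  refine card_le_one.2 fun g hg g' hg' => funext fun a => ?_
  obtain ⟨hg, hga⟩ := mem_ext.1 hg
  obtain ⟨hg', hga'⟩ := mem_ext.1 hg'
  by_cases ha : a ∈ T
  · rw [hga a ha, hga' a ha]
  · rw [(mem_emb.1 hg).1 a ha, (mem_emb.1 hg').1 a ha]

/-- Counting extensions through an intermediate set. -/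
lemma Setup.ext_card_le_sum {P Q T : Finset α} (hPQ : P ⊆ Q) (hQT : Q ⊆ T) (φ : α → V) :
    (C.ext P T φ).card ≤ ∑ ψ ∈ C.ext P Q φ, (C.ext Q T ψ).card := by
  refine le_trans (card_le_card ?_) card_biUnion_le
  intro g hg
  obtain ⟨hg, hga⟩ := mem_ext.1 hg
  refine mem_biUnion.2 ⟨C.res Q g, mem_ext.2 ⟨res_mem_emb hQT hg, fun a ha => ?_⟩,
    mem_ext.2 ⟨hg, fun a ha => ?_⟩⟩
  · rw [res_eq (hPQ ha), hga a ha]
  · rw [res_eq ha]

/-- The number of new edges at a vertex. -/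
def Setup.deg (W T : Finset α) (a : α) : ℕ := ((C.new W T).filter fun e => a ∈ e).card

lemma Setup.sum_deg_le {W T : Finset α} (S : Finset α) :
    ∑ a ∈ S, C.deg W T a ≤ 2 * (C.new W T).card := by
  simp only [Setup.deg, card_filter]
  rw [sum_comm, mul_comm, ← smul_eq_mul]
  refine sum_le_card_nsmul _ _ _ fun e _ => ?_
  rw [← card_filter]
  refine le_trans (card_le_card (t := e.toFinset) fun a ha => ?_) ?_
  · exact Sym2.mem_toFinset.2 (mem_filter.1 ha).2
  · rw [Sym2.card_toFinset]; split_ifs <;> omega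

/-- The vertices of `P` with a new edge into `T`. -/
def Setup.roots (P T : Finset α) : Finset α := P.filter fun w => ∃ e ∈ C.new P T, w ∈ e

/-- The neighbours outside `P` of a vertex. -/
def Setup.nbr (P T : Finset α) (w : α) : Finset α := (T \ P).filter fun a => s(w, a) ∈ C.DF

lemma Setup.other_end {P T : Finset α} {w : α} {e : Sym2 α}
    (hwP : w ∈ P) (he : e ∈ C.new P T) (hw : w ∈ e) :
    ∃ b, b ∈ T \ P ∧ e = s(w, b) ∧ w ≠ b := by
  obtain ⟨heT, a, ha, haP⟩ := mem_new.1 he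
  refine ⟨a, mem_sdiff.2 ⟨(mem_D.1 heT).2 a ha, haP⟩, ?_, fun h => haP (h ▸ hwP)⟩
  exact (Sym2.mem_and_mem_iff fun (h : w = a) => haP (h ▸ hwP)).1 ⟨hw, ha⟩

lemma Setup.mem_roots {P T : Finset α} (hPT : P ⊆ T) {w : α} :
    w ∈ C.roots P T ↔ w ∈ P ∧ 0 < (C.nbr P T w).card := by
  simp only [Setup.roots, mem_filter, card_pos, Setup.nbr]
  refine and_congr_right fun hw => ⟨?_, ?_⟩
  · rintro ⟨e, he, hwe⟩
    obtain ⟨b, hb, rfl, -⟩ := other_end hw he hwe
    exact ⟨b, mem_filter.2 ⟨hb, (mem_D.1 (mem_new.1 he).1).1⟩⟩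
  · rintro ⟨b, hb⟩
    obtain ⟨hb, hbe⟩ := mem_filter.1 hb
    obtain ⟨hbT, hbP⟩ := mem_sdiff.1 hb
    refine ⟨s(w, b), mem_new.2 ⟨mem_D.2 ⟨hbe, fun a ha => ?_⟩, b, Sym2.mem_mk_right w b, hbP⟩,
      Sym2.mem_mk_left w b⟩
    rcases Sym2.mem_iff.1 ha with rfl | rfl
    · exact hPT hw
    · exact hbT

end Vale.Agent.P064
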