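import Vale.Agent.P064.Propagate

/-! Counting extensions over one chunk, and the chain of chunks. -/

set_option linter.unusedSectionVars false

namespace Vale.Agent.P064

open Finset

variable {α V : Type*} [Fintype α] [DecidableEq α] [Fintype V] [DecidableEq V]
variable {C : Setup α V}

/-- The loss per edge, with the width and its exponent as parameters. -/
noncomputable def loss (Λ s : ℝ) : ℝ := Real.exp 20 * Λ ^ s

/-- Admissible widths: between `1` and `1 + log n`, and either the latter or a degree bound.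
Admissible exponents: at least `1`, or at least `log (1/q) / log n`. -/
def Setup.Expo (C : Setup α V) (Λ s : ℝ) : Prop :=
  (0 ≤ s ∧ (1 ≤ s ∨ -Real.log C.q ≤ s * Real.log C.n)) ∧ 1 ≤ Λ ∧ Λ ≤ 1 + Real.log C.n ∧
    (1 + Real.log C.n ≤ Λ ∨ ∀ z : V, ((C.EH.filter fun e => z ∈ e).card : ℝ) ≤ Λ)

lemma one_le_loss {Λ s : ℝ} (hΛ : 1 ≤ Λ) (hs : 0 ≤ s) : Real.exp 20 ≤ loss Λ s :=
  le_mul_of_one_le_right (Real.exp_pos _).le (Real.one_le_rpow hΛ hs)

lemma loss_pos {Λ s : ℝ} (hΛ : 1 ≤ Λ) (hs : 0 ≤ s) : 0 < loss Λ s :=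
  (Real.exp_pos _).trans_le (one_le_loss hΛ hs)

lemma roots_card_le {W T : Finset α} :
    (C.roots W T).card ≤ (C.new W T).card := by
  classical
  have hch : ∀ w ∈ C.roots W T, ∃ e ∈ C.new W T, w ∈ e := fun w hw => (mem_filter.1 hw).2
  choose F hF hFw using hch
  have hinj : ∀ w (hw : w ∈ C.roots W T) w' (hw' : w' ∈ C.roots W T),
      F w hw = F w' hw' → w = w' := by
    intro w hw w' hw' h
    obtain ⟨b, hb, heq, -⟩ :=
      Setup.other_end (mem_filter.1 hw).1 (hF w hw) (hFw w hw)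
    have h' := hFw w' hw'
    rw [← h, heq, Sym2.mem_iff] at h'
    rcases h' with rfl | rfl
    · rfl
    · exact absurd (mem_filter.1 hw').1 (mem_sdiff.1 hb).2
  calc (C.roots W T).card = (C.roots W T).attach.card := card_attach.symm
    _ ≤ (C.new W T).card := card_le_card_of_injOn (fun w => F w.1 w.2) (fun w _ => hF w.1 w.2)
        (fun w _ w' _ h => Subtype.ext (hinj _ _ _ _ h))

/-- A family of extensions with pairwise disjoint new images is small. -/
lemma disjoint_family (h : C.Hyp) {W T : Finset α} (hWT : W ⊆ T) {φ : α → V}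
    {𝒮 : Finset (α → V)} (h𝒮 : 𝒮 ⊆ C.ext W T φ) {y0 : α} (hy0 : y0 ∈ T \ W)
    (hdis : ∀ g ∈ 𝒮, ∀ g' ∈ 𝒮, ∀ a ∈ T \ W, ∀ b ∈ T \ W, g a = g' b → g = g') :
    (𝒮.card.factorial : ℝ) ≤ 2 * (C.n : ℝ) ^ (C.roots W T).card
      * ((C.n : ℝ) ^ (T \ W).card * C.q ^ (C.new W T).card) ^ 𝒮.card := by
  classical
  set Y := T \ W with hY
  set R := C.roots W T with hR
  have hgT : ∀ g ∈ 𝒮, g ∈ C.emb T := fun g hg => (Setup.mem_ext.1 (h𝒮 hg)).1
  have hgW : ∀ g ∈ 𝒮, ∀ a ∈ W, g a = φ a := fun g hg => (Setup.mem_ext.1 (h𝒮 hg)).2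
  have hinjT : ∀ g ∈ 𝒮, ∀ a ∈ T, ∀ b ∈ T, g a = g b → a = b :=
    fun g hg => (Setup.mem_emb.1 (hgT g hg)).2.1
  let ι : ({g // g ∈ 𝒮} × {a // a ∈ Y}) ↪ V := ⟨fun q => q.1.1 q.2.1, by
    rintro ⟨g, a⟩ ⟨g', b⟩ hab
    have hg : g = g' := Subtype.ext (hdis _ g.2 _ g'.2 _ a.2 _ b.2 hab)
    subst hg
    exact Prod.ext rfl (Subtype.ext (hinjT _ g.2 _ (mem_sdiff.1 a.2).1 _ (mem_sdiff.1 b.2).1 hab))⟩
  let σ : Equiv.Perm {g // g ∈ 𝒮} → Equiv.Perm V := fun π =>
    Equiv.Perm.viaEmbedding (π.prodCongr (Equiv.refl {a // a ∈ Y})) ι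
  have hσY : ∀ (π : Equiv.Perm {g // g ∈ 𝒮}) (g : {g // g ∈ 𝒮}) (a : α), a ∈ Y →
      σ π (g.1 a) = (π g).1 a := by
    intro π g a ha
    exact Equiv.Perm.viaEmbedding_apply (π.prodCongr (Equiv.refl {a // a ∈ Y})) ι (g, ⟨a, ha⟩)
  have hσR : ∀ (π : Equiv.Perm {g // g ∈ 𝒮}) (w : α), w ∈ R → σ π (φ w) = φ w := by
    intro π w hw
    refine Equiv.Perm.viaEmbedding_apply_of_notMem _ ι _ ?_
    rintro ⟨⟨g, a⟩, hq⟩
    have hwW := (mem_filter.1 hw).1
    change g.1 a.1 = φ w at hq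
    rw [← hgW g.1 g.2 w hwW] at hq
    have := hinjT _ g.2 _ (mem_sdiff.1 a.2).1 _ (hWT hwW) hq
    exact (mem_sdiff.1 a.2).2 (this ▸ hwW)
  have hσall : ∀ (π : Equiv.Perm {g // g ∈ 𝒮}) (g : {g // g ∈ 𝒮}) (e : Sym2 α),
      e ∈ C.new W T → (e.map g.1).map (σ π) = e.map (π g).1 := by
    intro π g e he
    rw [Sym2.map_map]
    refine Sym2.map_congr fun a ha => ?_
    by_cases haW : a ∈ W
    · simp only [Function.comp, hgW g.1 g.2 a haW, hgW _ (π g).2 a haW]
      exact hσR π a (mem_filter.2 ⟨haW, e, he, ha⟩)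
    · exact hσY π g a (mem_sdiff.2 ⟨(Setup.mem_D.1 (Setup.mem_new.1 he).1).2 a ha, haW⟩)
  set A := R.image φ ∪ 𝒮.biUnion (fun g => Y.image g) with hA
  set E := 𝒮.biUnion (fun g => (C.new W T).image fun e => e.map g) with hE
  have hEH : E ⊆ C.EH := by
    intro z hz
    obtain ⟨g, hg, hz⟩ := mem_biUnion.1 hz
    obtain ⟨e, he, rfl⟩ := mem_image.1 hz
    exact (Setup.mem_emb.1 (hgT g hg)).2.2 e (Setup.mem_new.1 he).1
  have hends : ∀ z ∈ E, ∀ v ∈ z, v ∈ A := by
    intro z hz v hv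
    obtain ⟨g, hg, hz⟩ := mem_biUnion.1 hz
    obtain ⟨e, he, rfl⟩ := mem_image.1 hz
    obtain ⟨a, ha, rfl⟩ := Sym2.mem_map.1 hv
    by_cases haW : a ∈ W
    · rw [hgW g hg a haW]
      exact mem_union_left _ (mem_image_of_mem _ (mem_filter.2 ⟨haW, e, he, ha⟩))
    · exact mem_union_right _ (mem_biUnion.2 ⟨g, hg, mem_image_of_mem _
        (mem_sdiff.2 ⟨(Setup.mem_D.1 (Setup.mem_new.1 he).1).2 a ha, haW⟩)⟩)
  have hG := h.hyp A E hEH hends (univ.image σ) ?_ ?_
  · rw [card_image_of_injective] at hG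
    · rw [card_univ, Fintype.card_perm, Fintype.card_coe] at hG
      refine hG.trans ?_
      have hAcard : A.card ≤ R.card + 𝒮.card * Y.card := by
        refine (card_union_le _ _).trans (add_le_add card_image_le (card_biUnion_le.trans ?_))
        rw [← smul_eq_mul, ← sum_const]
        exact sum_le_sum fun g _ => card_image_le
      have hEcard : E.card = 𝒮.card * (C.new W T).card := by
        rw [hE, card_biUnion]
        · rw [← smul_eq_mul, ← sum_const]
          exact sum_congr rfl fun g hg => card_image_of_injOn fun e he e' he' =>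
            Setup.map_injOn (hgT g hg) e (Setup.mem_new.1 he).1 e' (Setup.mem_new.1 he').1
        · intro g hg g' hg' hne
          simp only [Function.onFun, disjoint_left]
          intro z hz hz'
          obtain ⟨e, he, rfl⟩ := mem_image.1 hz
          obtain ⟨e', he', heq⟩ := mem_image.1 hz'
          obtain ⟨heT, a, ha, haW⟩ := Setup.mem_new.1 he
          have haT := (Setup.mem_D.1 heT).2 a ha
          have hga : g a ∈ e'.map g' := heq ▸ Sym2.mem_map.2 ⟨a, ha, rfl⟩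
          obtain ⟨b, hb, hba⟩ := Sym2.mem_map.1 hga
          have hbT := (Setup.mem_D.1 (Setup.mem_new.1 he').1).2 b hb
          by_cases hbW : b ∈ W
          · rw [hgW g' hg' b hbW, ← hgW g hg b hbW] at hba
            exact haW (hinjT g hg b hbT a haT hba ▸ hbW)
          · exact hne (hdis g hg g' hg' a (mem_sdiff.2 ⟨haT, haW⟩) b (mem_sdiff.2 ⟨hbT, hbW⟩)
              hba.symm)
      calc 2 * (C.n : ℝ) ^ A.card * C.q ^ E.card
          ≤ 2 * (C.n : ℝ) ^ (R.card + 𝒮.card * Y.card) * C.q ^ E.card := by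
            have := h.n1
            have := h.q0
            gcongr
        _ = _ := by rw [hEcard, mul_pow, ← pow_mul, ← pow_mul, pow_add]; ring
    · intro π π' hππ
      refine Equiv.ext fun g => Subtype.ext ?_
      have h1 := hσY π g y0 hy0
      have h2 := hσY π' g y0 hy0
      rw [hππ] at h1
      exact hdis _ (π g).2 _ (π' g).2 _ hy0 _ hy0 (h1.symm.trans h2)
  · intro τ hτ
    obtain ⟨π, -, rfl⟩ := mem_image.1 hτ
    constructor
    · intro v hv
      rcases mem_union.1 hv with hv | hv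
      · obtain ⟨w, hw, rfl⟩ := mem_image.1 hv
        rw [hσR π w hw]
        exact mem_union_left _ (mem_image_of_mem _ hw)
      · obtain ⟨g, hg, hv⟩ := mem_biUnion.1 hv
        obtain ⟨a, ha, rfl⟩ := mem_image.1 hv
        rw [hσY π ⟨g, hg⟩ a ha]
        exact mem_union_right _ (mem_biUnion.2 ⟨_, (π ⟨g, hg⟩).2, mem_image_of_mem _ ha⟩)
    · intro z hz
      obtain ⟨g, hg, hz⟩ := mem_biUnion.1 hz
      obtain ⟨e, he, rfl⟩ := mem_image.1 hz
      rw [hσall π ⟨g, hg⟩ e he]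
      exact mem_biUnion.2 ⟨_, (π ⟨g, hg⟩).2, mem_image.2 ⟨e, he, rfl⟩⟩
  · intro τ hτ τ' hτ' heq
    obtain ⟨π, -, rfl⟩ := mem_image.1 hτ
    obtain ⟨π', -, rfl⟩ := mem_image.1 hτ'
    refine congrArg σ (Equiv.ext fun g => Subtype.ext ?_)
    have h1 := heq (g.1 y0) (mem_union_right _ (mem_biUnion.2 ⟨_, g.2, mem_image_of_mem _ hy0⟩))
    rw [hσY π g y0 hy0, hσY π' g y0 hy0] at h1
    exact hdis _ (π g).2 _ (π' g).2 _ hy0 _ hy0 h1

lemma pow_self_le (k : ℕ) : (k : ℝ) ^ k ≤ Real.exp k * k.factorial := by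
  have h := Real.pow_div_factorial_le_exp (k : ℝ) (Nat.cast_nonneg k) k
  rwa [div_le_iff₀ (Nat.cast_pos.2 (Nat.factorial_pos k))] at h

lemma count_bound {k R : ℕ} {n x : ℝ} (hn : 1 ≤ n) (hx : 0 < x)
    (h : (k.factorial : ℝ) ≤ 2 * n ^ R * x ^ k) :
    (R = 0 → (k : ℝ) ≤ 2 * Real.exp 1 * x) ∧
      (0 < R → (k : ℝ) ≤ Real.exp 1 ^ 2 * x + R * (1 + Real.log n)) := by
  have hl := Real.log_nonneg hn
  have hk : (k : ℝ) ^ k ≤ 2 * n ^ R * (Real.exp 1 * x) ^ k := by
    calc (k : ℝ) ^ k ≤ Real.exp k * k.factorial := pow_self_le k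
      _ ≤ Real.exp k * (2 * n ^ R * x ^ k) :=
          mul_le_mul_of_nonneg_left h (Real.exp_pos _).le
      _ = _ := by rw [← Real.exp_one_pow, mul_pow]; ring
  constructor
  · intro hR
    subst hR
    rcases Nat.eq_zero_or_pos k with rfl | hk0
    · rw [Nat.cast_zero]; positivity
    refine le_of_pow_le_pow_left₀ hk0.ne' (by positivity) (hk.trans ?_)
    rw [pow_zero, mul_one, mul_assoc 2 (Real.exp 1) x, mul_pow 2]
    refine mul_le_mul_of_nonneg_right ?_ (by positivity)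
    exact le_self_pow₀ one_le_two hk0.ne'
  · intro hR
    by_cases hc : (k : ℝ) ≤ Real.exp 1 ^ 2 * x
    · nlinarith [mul_nonneg (Nat.cast_nonneg (α := ℝ) R) hl]
    · have h2 : Real.exp 1 ^ k * (Real.exp 1 * x) ^ k ≤ 2 * n ^ R * (Real.exp 1 * x) ^ k := by
        rw [← mul_pow]
        refine le_trans (pow_le_pow_left₀ (by positivity) ?_ k) hk
        rw [← mul_assoc, ← pow_two]
        exact (not_le.1 hc).le
      have h3 := Real.log_le_log (by positivity) (le_of_mul_le_mul_right h2 (by positivity))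
      rw [Real.log_pow, Real.log_exp, mul_one, Real.log_mul two_ne_zero (by positivity),
        Real.log_pow] at h3
      have h4 : Real.log 2 ≤ 1 := by
        have := Real.log_le_sub_one_of_pos (show (0 : ℝ) < 2 by norm_num)
        linarith
      have h5 : (1 : ℝ) ≤ R := by exact_mod_cast hR
      have h6 : 0 < Real.exp 1 ^ 2 * x := by positivity
      nlinarith

lemma num_bound (r : ℕ) (hr : 1 ≤ r) :
    36 * (r : ℝ) ^ 3 * Real.exp r * Real.exp (8 * r) ≤ Real.exp 20 ^ r := by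
  have h1 : (r : ℝ) ≤ Real.exp r := by linarith [Real.add_one_le_exp (r : ℝ)]
  have h2 : (36 : ℝ) ≤ Real.exp (4 * r) := by
    have hr' : (1 : ℝ) ≤ r := by exact_mod_cast hr
    have h : Real.exp 4 ≤ Real.exp (4 * r) := Real.exp_le_exp.2 (by linarith)
    have : (36 : ℝ) ≤ Real.exp 4 := by
      have h := pow_le_pow_left₀ (by norm_num) Real.exp_one_gt_d9.le 4
      rw [← Real.exp_nat_mul] at h
      norm_num at h ⊢
      linarith
    linarith
  calc 36 * (r : ℝ) ^ 3 * Real.exp r * Real.exp (8 * r)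
      ≤ Real.exp (4 * r) * Real.exp r ^ 3 * Real.exp r * Real.exp (8 * r) := by gcongr
    _ = Real.exp (16 * r) := by
        rw [← Real.exp_nat_mul, ← Real.exp_add, ← Real.exp_add, ← Real.exp_add]
        congr 1
        push_cast
        ring
    _ ≤ _ := by
        rw [← Real.exp_nat_mul, Real.exp_le_exp]
        have : (0 : ℝ) ≤ r := Nat.cast_nonneg r
        linarith

lemma pinned_card (h : C.Hyp) {W T : Finset α} (hWT : W ⊂ T) (hm : C.Margin W T) (φ : α → V)
    {Λ : ℝ} (hΛ : 1 + Real.log C.n ≤ Λ) {u : α} (hu : u ∈ T \ W) (z : V) :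
    (((C.ext W T φ).filter fun g => g u = z).card : ℝ)
      ≤ Λ ^ ((T \ W).card - 1) * Real.exp (8 * (C.new W T).card) := by
  have hlog : 0 ≤ Real.log C.n := Real.log_nonneg h.n1
  have hΛ1 : 1 ≤ Λ := by linarith
  rcases ((C.ext W T φ).filter fun g => g u = z).eq_empty_or_nonempty with h0 | ⟨g1, hg1⟩
  · rw [h0]
    simp only [card_empty, Nat.cast_zero]
    positivity
  obtain ⟨hg1, hg1u⟩ := mem_filter.1 hg1
  have hPT : insert u W ⊆ T := insert_subset (mem_sdiff.1 hu).1 hWT.subset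
  have hWP : W ⊂ insert u W := ssubset_insert (mem_sdiff.1 hu).2
  have hsub : ((C.ext W T φ).filter fun g => g u = z) ⊆ C.ext (insert u W) T g1 := by
    intro g hg
    obtain ⟨hg, hgu⟩ := mem_filter.1 hg
    refine Setup.mem_ext.2 ⟨(Setup.mem_ext.1 hg).1, fun a ha => ?_⟩
    rcases mem_insert.1 ha with rfl | ha
    · rw [hgu, hg1u]
    · rw [(Setup.mem_ext.1 hg).2 a ha, (Setup.mem_ext.1 hg1).2 a ha]
  refine (Nat.cast_le.2 (card_le_card hsub)).trans ((Setup.pinned h hm hΛ _ 0 rfl _ hWP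
    hPT (fun w _ => by omega) g1).trans ?_)
  rw [sdiff_insert, card_erase_of_mem hu]
  gcongr
  exact C.pot_le W T _

/-- In a host of bounded degree a pinned piece has few extensions. -/
lemma pinned_deg (h : C.Hyp) {W T : Finset α} (hm : C.Margin W T) {Λ : ℝ} (hΛ : 1 ≤ Λ)
    (hd : ∀ z : V, ((C.EH.filter fun e => z ∈ e).card : ℝ) ≤ Λ) :
    ∀ k P, (T \ P).card = k → W ⊂ P → P ⊆ T → ∀ φ,
      ((C.ext P T φ).card : ℝ) ≤ Λ ^ k := by
  classical
  intro k
  induction k using Nat.strong_induction_on with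
  | _ k ih =>
    intro P hk hWP hPT φ
    rcases Setup.ext_eq_empty_or (C := C) (P := P) (T := T) (φ := φ) with h0 | ⟨g0, hg0⟩
    · rw [h0, card_empty, Nat.cast_zero]; positivity
    by_cases hne : P = T
    · subst hne
      exact le_trans (by exact_mod_cast Setup.ext_self_card P φ) (one_le_pow₀ hΛ)
    obtain ⟨w, hw⟩ := Setup.roots_nonempty h hm hWP hPT hne hg0
    obtain ⟨hwP, e, he, hwe⟩ := mem_filter.1 hw
    obtain ⟨b, hb, rfl, -⟩ := Setup.other_end hwP he hwe
    obtain ⟨hbT, hbP⟩ := mem_sdiff.1 hb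
    have hk1 : (T \ insert b P).card = k - 1 := by
      rw [sdiff_insert, card_erase_of_mem hb, hk]
    have hkpos : 1 ≤ k := hk ▸ card_pos.2 ⟨b, hb⟩
    have himg : (((C.ext P T φ).image fun g => g b).card : ℝ) ≤ Λ := by
      refine le_trans (Nat.cast_le.2 (card_le_card_of_injOn
        (t := C.EH.filter fun z => φ w ∈ z) (fun z => s(φ w, z))
        (fun z hz => ?_) (fun a _ c _ hac => Sym2.congr_right.1 hac))) (hd (φ w))
      obtain ⟨g, hg, rfl⟩ := mem_image.1 hz
      obtain ⟨hgT, hgP⟩ := Setup.mem_ext.1 hg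
      refine mem_filter.2 ⟨?_, Sym2.mem_mk_left _ _⟩
      have := (Setup.mem_emb.1 hgT).2.2 _ (Setup.mem_new.1 he).1
      rwa [Sym2.map_mk, hgP w hwP] at this
    calc ((C.ext P T φ).card : ℝ)
        = ∑ z ∈ (C.ext P T φ).image (fun g => g b),
            (((C.ext P T φ).filter fun g => g b = z).card : ℝ) := by
          rw [← Nat.cast_sum, ← card_eq_sum_card_image]
      _ ≤ ∑ _z ∈ (C.ext P T φ).image (fun g => g b), Λ ^ (k - 1) := sum_le_sum fun z hz => by
          obtain ⟨g1, hg1, rfl⟩ := mem_image.1 hz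
          refine le_trans (Nat.cast_le.2 (card_le_card (t := C.ext (insert b P) T g1) fun g hg => ?_))
            (ih _ (by omega) _ hk1 (hWP.trans (ssubset_insert hbP)) (insert_subset hbT hPT) g1)
          obtain ⟨hg, hgb⟩ := mem_filter.1 hg
          refine Setup.mem_ext.2 ⟨(Setup.mem_ext.1 hg).1, fun a ha => ?_⟩
          rcases mem_insert.1 ha with rfl | ha
          · exact hgb
          · rw [(Setup.mem_ext.1 hg).2 a ha, (Setup.mem_ext.1 hg1).2 a ha]
      _ ≤ Λ * Λ ^ (k - 1) := by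
          rw [sum_const, nsmul_eq_mul]
          exact mul_le_mul_of_nonneg_right himg (by positivity)
      _ = Λ ^ k := by rw [← pow_succ', show k - 1 + 1 = k by omega]

/-- A disjoint family with a root is no larger than a degree. -/
lemma family_deg {W T : Finset α} {φ : α → V} {Λ : ℝ}
    (hd : ∀ z : V, ((C.EH.filter fun e => z ∈ e).card : ℝ) ≤ Λ)
    {𝒮 : Finset (α → V)} (h𝒮 : 𝒮 ⊆ C.ext W T φ) (hR : (C.roots W T).Nonempty)
    (hdis : ∀ g ∈ 𝒮, ∀ g' ∈ 𝒮, ∀ a ∈ T \ W, ∀ b ∈ T \ W, g a = g' b → g = g') :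
    (𝒮.card : ℝ) ≤ Λ := by
  classical
  obtain ⟨w, hw⟩ := hR
  obtain ⟨hwW, e, he, hwe⟩ := mem_filter.1 hw
  obtain ⟨b, hb, rfl, -⟩ := Setup.other_end hwW he hwe
  refine le_trans (Nat.cast_le.2 (card_le_card_of_injOn
    (t := C.EH.filter fun z => φ w ∈ z) (fun g => s(φ w, g b)) (fun g hg => ?_)
    (fun g hg g' hg' hgg => hdis g hg g' hg' b hb b hb (Sym2.congr_right.1 hgg)))) (hd (φ w))
  obtain ⟨hgT, hgW⟩ := Setup.mem_ext.1 (h𝒮 hg)
  refine mem_filter.2 ⟨?_, Sym2.mem_mk_left _ _⟩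
  have := (Setup.mem_emb.1 hgT).2.2 _ (Setup.mem_new.1 he).1
  rwa [Sym2.map_mk, hgW w hwW] at this

lemma cover_count {W T : Finset α} (φ : α → V) {y0 : α} (hy0 : y0 ∈ T \ W) {P : ℝ}
    (hP0 : 0 ≤ P)
    (hpin : ∀ u ∈ T \ W, ∀ z, (((C.ext W T φ).filter fun g => g u = z).card : ℝ) ≤ P) :
    ∃ 𝒮 ⊆ C.ext W T φ, (∀ g ∈ 𝒮, ∀ g' ∈ 𝒮, ∀ a ∈ T \ W, ∀ b ∈ T \ W, g a = g' b → g = g')
      ∧ ((C.ext W T φ).card : ℝ) ≤ ((T \ W).card : ℝ) ^ 2 * 𝒮.card * P := by
  classical
  set Y := T \ W with hY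
  obtain ⟨𝒮, h𝒮, hmax⟩ := exists_max_image
    ((C.ext W T φ).powerset.filter fun 𝒮 => ∀ g ∈ 𝒮, ∀ g' ∈ 𝒮, ∀ a ∈ Y, ∀ b ∈ Y,
      g a = g' b → g = g') (fun 𝒮 => 𝒮.card) ⟨∅, mem_filter.2 ⟨empty_mem_powerset _, by simp⟩⟩
  obtain ⟨h𝒮sub, hdis⟩ := mem_filter.1 h𝒮
  rw [mem_powerset] at h𝒮sub
  set k := 𝒮.card with hk
  set Z := 𝒮.biUnion fun g => Y.image g with hZ
  have hZcard : Z.card ≤ k * Y.card := by
    refine card_biUnion_le.trans ?_
    rw [hk, ← smul_eq_mul, ← sum_const]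
    exact sum_le_sum fun g _ => card_image_le
  have hhit : C.ext W T φ ⊆ Y.biUnion fun u => Z.biUnion fun z =>
      (C.ext W T φ).filter fun g => g u = z := by
    intro g hg
    suffices ∃ u ∈ Y, g u ∈ Z by
      obtain ⟨u, hu, hz⟩ := this
      exact mem_biUnion.2 ⟨u, hu, mem_biUnion.2 ⟨g u, hz, mem_filter.2 ⟨hg, rfl⟩⟩⟩
    by_contra hc
    simp only [not_exists, not_and] at hc
    have hg𝒮 : g ∉ 𝒮 := fun h' => hc y0 hy0 (mem_biUnion.2 ⟨g, h', mem_image_of_mem _ hy0⟩)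
    have := hmax (insert g 𝒮) (mem_filter.2 ⟨mem_powerset.2 (insert_subset hg h𝒮sub), ?_⟩)
    · simp only [card_insert_of_notMem hg𝒮] at this
      omega
    · intro g1 h1 g2 h2 a ha b hb hab
      rcases mem_insert.1 h1 with e1 | h1' <;> rcases mem_insert.1 h2 with e2 | h2'
      · rw [e1, e2]
      · subst e1
        exact absurd (mem_biUnion.2 ⟨g2, h2', mem_image.2 ⟨b, hb, hab.symm⟩⟩) (hc a ha)
      · subst e2
        exact absurd (mem_biUnion.2 ⟨g1, h1', mem_image.2 ⟨a, ha, hab⟩⟩) (hc b hb)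
      · exact hdis g1 h1' g2 h2' a ha b hb hab
  have hcount : ((C.ext W T φ).card : ℝ) ≤ (Y.card : ℝ) ^ 2 * k * P := by
    calc ((C.ext W T φ).card : ℝ)
        ≤ ∑ u ∈ Y, ∑ z ∈ Z, (((C.ext W T φ).filter fun g => g u = z).card : ℝ) := by
          exact_mod_cast (card_le_card hhit).trans
            (card_biUnion_le.trans (sum_le_sum fun u _ => card_biUnion_le))
      _ ≤ ∑ _u ∈ Y, ∑ _z ∈ Z, P := sum_le_sum fun u hu => sum_le_sum fun z _ => hpin u hu z
      _ = (Y.card : ℝ) * Z.card * P := by simp [sum_const, nsmul_eq_mul]; ring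
      _ ≤ (Y.card : ℝ) * ((k * Y.card : ℕ) : ℝ) * P := by gcongr
      _ = _ := by push_cast; ring
  exact ⟨𝒮, h𝒮sub, hdis, hcount⟩

lemma expo_zero (h : C.Hyp) {W T : Finset α} (hWT : W ⊂ T) (hm : C.Margin W T) {g0 : α → V}
    (hg0T : g0 ∈ C.emb T) {y0 : α} (hy0 : y0 ∈ T \ W) :
    (T \ W).card - 1 ≤ (C.new W T).card := by
  have hWP : W ⊂ insert y0 W := ssubset_insert (mem_sdiff.1 hy0).2
  have hPT : insert y0 W ⊆ T := insert_subset (mem_sdiff.1 hy0).1 hWT.subset
  have h' := Setup.reach h hm hg0T _ _ rfl hWP hPT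
  rw [sdiff_insert, card_erase_of_mem hy0] at h'
  exact h'.trans (card_le_card (Setup.new_anti (subset_insert _ _)))

lemma expo_pos (h : C.Hyp) {W T : Finset α} (hWT : W ⊂ T) (hm : C.Margin W T) {g0 : α → V}
    (hg0T : g0 ∈ C.emb T) (hR0 : 0 < (C.roots W T).card) :
    (T \ W).card - 1 ≤ (C.new W T).card - 1 := by
  obtain ⟨w, hw⟩ := card_pos.1 hR0
  obtain ⟨hwW, e, he, hwe⟩ := mem_filter.1 hw
  obtain ⟨b, hb, heq, -⟩ := Setup.other_end hwW he hwe
  have hWP : W ⊂ insert b W := ssubset_insert (mem_sdiff.1 hb).2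
  have hPT : insert b W ⊆ T := insert_subset (mem_sdiff.1 hb).1 hWT.subset
  have h' := Setup.reach h hm hg0T _ _ rfl hWP hPT
  rw [sdiff_insert, card_erase_of_mem hb] at h'
  have hlt : (C.new (insert b W) T).card < (C.new W T).card := by
    refine card_lt_card
      ((ssubset_iff_of_subset (Setup.new_anti (subset_insert b W))).2 ⟨e, he, ?_⟩)
    intro he'
    obtain ⟨-, a, ha, haP⟩ := Setup.mem_new.1 he'
    rw [heq, Sym2.mem_iff] at ha
    rcases ha with rfl | rfl
    · exact haP (mem_insert_of_mem hwW)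
    · exact haP (mem_insert_self _ _)
  have h'' : (T \ W).card - 1 ≤ (C.new (insert b W) T).card := h'
  omega

lemma finish_zero {y r : ℕ} {cnt k x Λ A : ℝ} (hr : 1 ≤ r) (hΛ : 1 ≤ Λ) (hx : 0 < x)
    (hk0 : 0 ≤ k) (hA : 0 ≤ A)
    (hy : y ≤ 2 * r) (hp : Λ ^ (y - 1) ≤ A ^ r) (hk : k ≤ 2 * Real.exp 1 * x)
    (hc : cnt ≤ (y : ℝ) ^ 2 * k * (Λ ^ (y - 1) * Real.exp (8 * r))) :
    cnt ≤ Real.exp 20 ^ r * A ^ r * x := by
  have hr1' : (1 : ℝ) ≤ r := by exact_mod_cast hr
  have her : 1 ≤ Real.exp r := Real.one_le_exp (by linarith)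
  have hk' : k ≤ 2 * 3 * x := hk.trans (by
    gcongr; linarith [Real.exp_one_lt_d9])
  have hy' : (y : ℝ) ^ 2 ≤ 4 * (r : ℝ) ^ 2 := by
    have : (y : ℝ) ≤ 2 * r := by exact_mod_cast hy
    nlinarith [(y.cast_nonneg : (0 : ℝ) ≤ y)]
  have h1 : 24 * (r : ℝ) ^ 2 * 1 ≤ 36 * (r : ℝ) ^ 3 * Real.exp r :=
    mul_le_mul (mul_le_mul (by norm_num) (pow_le_pow_right₀ hr1' (by norm_num))
      (by positivity) (by norm_num)) her zero_le_one (by positivity)
  calc cnt ≤ (y : ℝ) ^ 2 * k * (Λ ^ (y - 1) * Real.exp (8 * r)) := hc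
    _ ≤ (4 * (r : ℝ) ^ 2) * (2 * 3 * x) * (A ^ r * Real.exp (8 * r)) := by gcongr
    _ = (24 * (r : ℝ) ^ 2 * 1 * Real.exp (8 * r)) * (A ^ r * x) := by ring
    _ ≤ (36 * (r : ℝ) ^ 3 * Real.exp r * Real.exp (8 * r)) * (A ^ r * x) := by gcongr
    _ ≤ _ := by
        rw [mul_assoc (Real.exp 20 ^ r)]
        exact mul_le_mul_of_nonneg_right (num_bound r hr) (by positivity)

lemma finish_pos {y r : ℕ} {cnt k R x Λ A : ℝ} (hr : 1 ≤ r) (hy1 : 1 ≤ y) (hΛ : 1 ≤ Λ)
    (hx : 0 < x) (hA : 0 ≤ A) (hR0 : 0 ≤ R) (hRr : R ≤ r) (hy : y ≤ 2 * r)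
    (hp : Λ ^ (y - 1) ≤ A ^ r) (hpx : Λ ^ y ≤ A ^ r * (x * Real.exp r))
    (hk : k ≤ Real.exp 1 ^ 2 * x + R * Λ)
    (hc : cnt ≤ (y : ℝ) ^ 2 * k * (Λ ^ (y - 1) * Real.exp (8 * r))) :
    cnt ≤ Real.exp 20 ^ r * A ^ r * x := by
  have hr1' : (1 : ℝ) ≤ r := by exact_mod_cast hr
  have hy' : (y : ℝ) ^ 2 ≤ 4 * (r : ℝ) ^ 2 := by
    have : (y : ℝ) ≤ 2 * r := by exact_mod_cast hy
    nlinarith [(y.cast_nonneg : (0 : ℝ) ≤ y)]
  have her : 1 ≤ Real.exp r := Real.one_le_exp (by linarith)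
  have h2 : Real.exp 1 ^ 2 ≤ 8 := by nlinarith [Real.exp_one_lt_d9, Real.exp_pos (1 : ℝ)]
  have hkp : k * Λ ^ (y - 1) ≤ 9 * r * Real.exp r * (A ^ r * x) := by
    have e1 : R * Λ * Λ ^ (y - 1) ≤ r * (A ^ r * (x * Real.exp r)) := by
      rw [mul_assoc, ← pow_succ', show y - 1 + 1 = y by omega]
      exact mul_le_mul hRr hpx (by positivity) (Nat.cast_nonneg r)
    have e2 : Real.exp 1 ^ 2 * x * Λ ^ (y - 1) ≤ 8 * x * A ^ r := by gcongr
    have e3 : 8 * x * A ^ r ≤ 8 * r * Real.exp r * (A ^ r * x) := by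
      have := mul_le_mul_of_nonneg_right (one_le_mul_of_one_le_of_one_le hr1' her)
        (by positivity : (0 : ℝ) ≤ 8 * x * A ^ r)
      linarith
    have e4 := mul_le_mul_of_nonneg_right hk (pow_nonneg (zero_le_one.trans hΛ) (y - 1))
    linarith
  calc cnt ≤ (y : ℝ) ^ 2 * k * (Λ ^ (y - 1) * Real.exp (8 * r)) := hc
    _ = (y : ℝ) ^ 2 * (k * Λ ^ (y - 1)) * Real.exp (8 * r) := by ring
    _ ≤ (y : ℝ) ^ 2 * (9 * r * Real.exp r * (A ^ r * x)) * Real.exp (8 * r) := by gcongr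
    _ ≤ (4 * (r : ℝ) ^ 2) * (9 * r * Real.exp r * (A ^ r * x)) * Real.exp (8 * r) := by gcongr
    _ = (36 * (r : ℝ) ^ 3 * Real.exp r * Real.exp (8 * r)) * (A ^ r * x) := by ring
    _ ≤ _ := by
        rw [mul_assoc (Real.exp 20 ^ r)]
        exact mul_le_mul_of_nonneg_right (num_bound r hr) (by positivity)

/-- The margin at one more vertex bounds the vertices of a chunk by its edges. -/
lemma expo_margin (h : C.Hyp) {W T : Finset α} (hWT : W ⊂ T) (hm : C.Margin W T) {s : ℝ}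
    (hs : -Real.log C.q ≤ s * Real.log C.n) {y0 : α} (hy0 : y0 ∈ T \ W) :
    (((T \ W).card - 1 : ℕ) : ℝ) ≤ s * (C.new W T).card := by
  have hP := hm (insert y0 W) (ssubset_insert (mem_sdiff.1 hy0).2)
    (insert_subset (mem_sdiff.1 hy0).1 hWT.subset)
  rw [sdiff_insert, card_erase_of_mem hy0] at hP
  have hn : (2 : ℝ) ≤ C.n := by exact_mod_cast h.nn
  have hlog : 0 < Real.log C.n := Real.log_pos (by linarith)
  have hle : (C.n : ℝ) ^ ((T \ W).card - 1) * C.q ^ (C.new W T).card ≤ 1 := by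
    refine le_trans (mul_le_mul_of_nonneg_left ?_ (by positivity)) hP
    calc C.q ^ (C.new W T).card ≤ (Real.exp 1 * C.q) ^ (C.new W T).card :=
          pow_le_pow_left₀ h.q0.le
            (le_mul_of_one_le_left h.q0.le (Real.one_le_exp zero_le_one)) _
      _ ≤ (Real.exp 1 * C.q) ^ (C.new (insert y0 W) T).card :=
          pow_le_pow_of_le_one (mul_pos (Real.exp_pos _) h.q0).le h.qe
            (card_le_card (Setup.new_anti (subset_insert _ _)))
  have hl := Real.log_nonpos (mul_pos (pow_pos (by linarith) _) (pow_pos h.q0 _)).le hle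
  rw [Real.log_mul (pow_pos (by linarith) _).ne' (pow_pos h.q0 _).ne', Real.log_pow,
    Real.log_pow] at hl
  have := mul_le_mul_of_nonneg_left hs (Nat.cast_nonneg (α := ℝ) (C.new W T).card)
  refine le_of_mul_le_mul_right ?_ hlog
  linarith

/-- Few extensions over one chunk. -/
theorem chunk (h : C.Hyp) {W T : Finset α} (hWT : W ⊂ T) (hm : C.Margin W T)
    (hcl : W = ∅ ∨ 1 ≤ (C.n : ℝ) ^ (T \ W).card * (Real.exp 1 * C.q) ^ (C.new W T).card)
    (hdeg : ∀ a ∈ T \ W, ∃ e ∈ C.new W T, a ∈ e) {Λ s : ℝ} (hE : C.Expo Λ s) (φ : α → V) :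
    ((C.ext W T φ).card : ℝ)
      ≤ (C.n : ℝ) ^ (T \ W).card * (loss Λ s * C.q) ^ (C.new W T).card := by
  classical
  set Y := T \ W with hY
  set r := (C.new W T).card with hr
  set R := C.roots W T with hR
  set x := (C.n : ℝ) ^ Y.card * C.q ^ r with hx
  obtain ⟨hs, hΛ1, hΛlog, hwidth⟩ := hE
  have hn0 : (0 : ℝ) < C.n := by linarith [h.n1]
  have hxpos : 0 < x := mul_pos (pow_pos hn0 _) (pow_pos h.q0 _)
  obtain ⟨y0, hy0⟩ : Y.Nonempty := sdiff_nonempty.2 fun h' => hWT.2 h'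
  have hr1 : 1 ≤ r := by
    obtain ⟨e, he, -⟩ := hdeg y0 hy0
    exact card_pos.2 ⟨e, he⟩
  have hy2 : Y.card ≤ 2 * r := by
    refine le_trans ?_ (Setup.sum_deg_le (C := C) (W := W) (T := T) Y)
    rw [card_eq_sum_ones]
    refine sum_le_sum fun a ha => ?_
    obtain ⟨e, he, hae⟩ := hdeg a ha
    exact card_pos.2 ⟨e, mem_filter.2 ⟨he, hae⟩⟩
  rcases Setup.ext_eq_empty_or (C := C) (P := W) (T := T) (φ := φ) with h0 | ⟨g0, hg0⟩
  · rw [h0]
    simp only [card_empty, Nat.cast_zero]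
    have := h.q0
    have : 0 ≤ loss Λ s := (loss_pos hΛ1 hs.1).le
    positivity
  obtain ⟨hg0T, hg0W⟩ := Setup.mem_ext.1 hg0
  obtain ⟨𝒮, h𝒮sub, hdis, hcount⟩ := cover_count φ hy0 (P := Λ ^ (Y.card - 1) * Real.exp (8 * r))
    (by positivity) (fun u hu z => by
      rcases hwidth with hf | hd
      · exact pinned_card h hWT hm φ hf hu z
      rcases ((C.ext W T φ).filter fun g => g u = z).eq_empty_or_nonempty with h0 | ⟨g1, hg1⟩
      · rw [h0, card_empty, Nat.cast_zero]; positivity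
      obtain ⟨hg1, hg1u⟩ := mem_filter.1 hg1
      refine le_trans ?_ (le_mul_of_one_le_right (by positivity) (Real.one_le_exp (by positivity)))
      refine le_trans (Nat.cast_le.2 (card_le_card (t := C.ext (insert u W) T g1) fun g hg => ?_))
        (pinned_deg h hm hΛ1 hd _ (insert u W)
          (by rw [sdiff_insert, card_erase_of_mem hu]) (ssubset_insert (mem_sdiff.1 hu).2)
          (insert_subset (mem_sdiff.1 hu).1 hWT.subset) g1)
      obtain ⟨hg, hgu⟩ := mem_filter.1 hg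
      refine Setup.mem_ext.2 ⟨(Setup.mem_ext.1 hg).1, fun a ha => ?_⟩
      rcases mem_insert.1 ha with rfl | ha
      · rw [hgu, hg1u]
      · rw [(Setup.mem_ext.1 hg).2 a ha, (Setup.mem_ext.1 hg1).2 a ha])
  have hfact := disjoint_family h hWT.subset h𝒮sub hy0 hdis
  obtain ⟨hk0, hkR⟩ := count_bound h.n1 hxpos hfact
  have hkΛ : 0 < R.card → (𝒮.card : ℝ) ≤ Real.exp 1 ^ 2 * x + R.card * Λ := by
    intro hR0
    rcases hwidth with hf | hd
    · refine (hkR hR0).trans ?_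
      gcongr
    · have h1 : (1 : ℝ) ≤ R.card := by exact_mod_cast hR0
      have := family_deg hd h𝒮sub (card_pos.1 hR0) hdis
      have := mul_le_mul_of_nonneg_right h1 (zero_le_one.trans hΛ1)
      linarith [mul_pos (pow_pos (Real.exp_pos 1) 2) hxpos]
  set A := Λ ^ s with hA
  have hA0 : 0 ≤ A := Real.rpow_nonneg (by linarith) s
  have hgoal : (C.n : ℝ) ^ Y.card * (loss Λ s * C.q) ^ r = Real.exp 20 ^ r * A ^ r * x := by
    rw [hx, hA, loss, mul_pow, mul_pow]; ring
  rw [hgoal]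
  have hAr : A ^ r = Λ ^ (s * r) := by
    rw [hA, ← Real.rpow_natCast (Λ ^ s) r, ← Real.rpow_mul (by linarith)]
  have hexp : ((Y.card - 1 : ℕ) : ℝ) ≤ s * r := by
    rcases hs.2 with h1 | h1
    · exact (Nat.cast_le.2 (expo_zero h hWT hm hg0T hy0)).trans
        (le_mul_of_one_le_left (Nat.cast_nonneg _) h1)
    · exact expo_margin h hWT hm h1 hy0
  have hp : Λ ^ (Y.card - 1) ≤ A ^ r := by
    rw [hAr, ← Real.rpow_natCast]
    exact Real.rpow_le_rpow_of_exponent_le hΛ1 hexp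
  rcases Nat.eq_zero_or_pos R.card with hR0 | hR0
  · exact finish_zero hr1 hΛ1 hxpos (Nat.cast_nonneg _) hA0 hy2 hp (hk0 hR0) hcount
  · have hclose : 1 ≤ x * Real.exp r := by
      rcases hcl with hW | hclose
      · obtain ⟨w, hw⟩ := card_pos.1 hR0
        have := (mem_filter.1 hw).1
        simp [hW] at this
      · rw [hx, ← Real.exp_one_pow]
        calc (1 : ℝ) ≤ (C.n : ℝ) ^ Y.card * (Real.exp 1 * C.q) ^ r := hclose
          _ = _ := by rw [mul_pow]; ring
    have hpx : Λ ^ Y.card ≤ A ^ r * (x * Real.exp r) := by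
      rw [hAr, ← Real.rpow_natCast Λ Y.card]
      by_cases hc : (Y.card : ℝ) ≤ s * r
      · exact (Real.rpow_le_rpow_of_exponent_le hΛ1 hc).trans
          (le_mul_of_one_le_right (by positivity) hclose)
      rcases hs.2 with h1 | h1
      · refine absurd ?_ hc
        have := expo_pos h hWT hm hg0T hR0
        have hyr : Y.card ≤ r := by
          have hY1 : 1 ≤ Y.card := card_pos.2 ⟨y0, hy0⟩
          rw [hY] at hY1 ⊢
          omega
        exact (Nat.cast_le.2 hyr).trans (le_mul_of_one_le_left (Nat.cast_nonneg _) h1)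
      · have he : Λ ^ ((Y.card : ℝ) - s * r) ≤ x * Real.exp r := by
          have hΛn : Λ ≤ C.n := by
            have := Real.log_le_sub_one_of_pos hn0
            linarith
          refine ((Real.rpow_le_rpow (by linarith) hΛn (by linarith [not_le.1 hc])).trans ?_).trans
            (le_mul_of_one_le_right hxpos.le (Real.one_le_exp (Nat.cast_nonneg r)))
          rw [hx, Real.rpow_sub hn0, Real.rpow_natCast, div_eq_mul_inv]
          refine mul_le_mul_of_nonneg_left ?_ (by positivity)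
          rw [← Real.rpow_neg hn0.le, Real.rpow_def_of_pos hn0, ← Real.rpow_natCast,
            Real.rpow_def_of_pos h.q0, Real.exp_le_exp]
          have := mul_le_mul_of_nonneg_left h1 (Nat.cast_nonneg (α := ℝ) r)
          linarith
        calc Λ ^ (Y.card : ℝ) = Λ ^ (s * r) * Λ ^ ((Y.card : ℝ) - s * r) := by
              rw [← Real.rpow_add (by linarith)]; congr 1; ring
          _ ≤ _ := mul_le_mul_of_nonneg_left he (Real.rpow_nonneg (by linarith) _)
    exact finish_pos hr1 (card_pos.2 ⟨y0, hy0⟩) hΛ1 hxpos hA0 (Nat.cast_nonneg _)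
      (Nat.cast_le.2 roots_card_le) hy2 hp hpx (hkΛ hR0) hcount

/-- The weight of a vertex set, with tilt. -/
noncomputable def Setup.weight (C : Setup α V) (S : Finset α) : ℝ :=
  (C.n : ℝ) ^ S.card * (Real.exp 1 * C.q) ^ (C.D S).card

lemma weight_split {P T : Finset α} (hPT : P ⊆ T) :
    C.weight T = C.weight P
      * ((C.n : ℝ) ^ (T \ P).card * (Real.exp 1 * C.q) ^ (C.new P T).card) := by
  have h1 : T.card = P.card + (T \ P).card := by
    have := card_le_card hPT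
    rw [card_sdiff_of_subset hPT]
    omega
  rw [Setup.weight, Setup.weight, h1, Setup.card_D_add hPT, pow_add, pow_add]
  ring

/-- The counting theorem in relative form. -/
theorem ext_bound (h : C.Hyp) {Λ s : ℝ} (hs : C.Expo Λ s) (X : Finset α) : ∀ k W, (X \ W).card = k → W ⊆ X →
    (W = ∅ ∨ ∀ S, W ⊆ S → S ⊆ X → C.weight W ≤ C.weight S) → ∀ φ,
    ((C.ext W X φ).card : ℝ)
      ≤ (C.n : ℝ) ^ (X \ W).card * (loss Λ s * C.q) ^ (C.new W X).card := by
  classical
  intro k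
  induction k using Nat.strong_induction_on with
  | _ k ih =>
    intro W hk hWX hclosed φ
    have hn0 : (0 : ℝ) < C.n := by linarith [h.n1]
    have hΛ0 : 0 < loss Λ s := loss_pos hs.2.1 hs.1.1
    have hb0 : 0 < loss Λ s * C.q := mul_pos hΛ0 h.q0
    by_cases hne : W = X
    · subst hne
      have h0 : C.new W W = ∅ := Finset.sdiff_self _
      rw [h0, Finset.sdiff_self, card_empty, card_empty, pow_zero, pow_zero, one_mul]
      exact_mod_cast Setup.ext_self_card W φ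
    have hWX' : W ⊂ X := hWX.ssubset_of_ne hne
    obtain ⟨T, hT, hTmin⟩ := exists_min_image (X.powerset.filter fun S => W ⊂ S) C.weight
      ⟨X, mem_filter.2 ⟨mem_powerset.2 subset_rfl, hWX'⟩⟩
    obtain ⟨hTX', hWT⟩ := mem_filter.1 hT
    have hTX := mem_powerset.1 hTX'
    have hwpos : ∀ S, 0 < C.weight S := fun S =>
      mul_pos (pow_pos hn0 _) (pow_pos (mul_pos (Real.exp_pos _) h.q0) _)
    have hm : C.Margin W T := by
      intro P hWP hPT
      have := hTmin P (mem_filter.2 ⟨mem_powerset.2 (hPT.trans hTX), hWP⟩)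
      rw [weight_split hPT] at this
      exact le_of_mul_le_mul_left (this.trans_eq (mul_one _).symm) (hwpos P)
    have hclosedT : ∀ S, T ⊆ S → S ⊆ X → C.weight T ≤ C.weight S := fun S hTS hSX =>
      hTmin S (mem_filter.2 ⟨mem_powerset.2 hSX, hWT.trans_subset hTS⟩)
    have hchunk : ∀ ψ, ((C.ext W T ψ).card : ℝ)
        ≤ (C.n : ℝ) ^ (T \ W).card * (loss Λ s * C.q) ^ (C.new W T).card := by
      intro ψ
      by_cases hdeg : ∀ a ∈ T \ W, ∃ e ∈ C.new W T, a ∈ e
      · refine chunk h hWT hm ?_ hdeg hs ψ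
        rcases hclosed with hW | hcl
        · exact Or.inl hW
        · right
          have := hcl T hWT.subset hTX
          rw [weight_split hWT.subset] at this
          exact le_of_mul_le_mul_left ((mul_one _).trans_le this) (hwpos W)
      · simp only [not_forall] at hdeg
        obtain ⟨a, ha, hae⟩ := hdeg
        obtain ⟨haT, haW⟩ := mem_sdiff.1 ha
        have hD : ∀ e ∈ C.D T, a ∉ e := fun e he hae' =>
          hae ⟨e, Setup.mem_new.2 ⟨he, a, hae', haW⟩, hae'⟩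
        have hT1 : T.erase a = W := by
          by_contra hne'
          have hsub : W ⊂ T.erase a :=
            (subset_erase.2 ⟨hWT.subset, haW⟩).ssubset_of_ne (Ne.symm hne')
          have := hm (T.erase a) hsub (erase_subset a T)
          have h0 : C.new (T.erase a) T = ∅ := by
            refine sdiff_eq_empty_iff_subset.2 fun e he => Setup.mem_D.2
              ⟨(Setup.mem_D.1 he).1, fun b hb => mem_erase.2 ⟨?_, (Setup.mem_D.1 he).2 b hb⟩⟩
            rintro rfl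
            exact hD e he hb
          have h1 : (T \ T.erase a).card = 1 := by
            rw [card_sdiff_of_subset (erase_subset a T), card_erase_of_mem haT]
            have := card_pos.2 ⟨a, haT⟩
            omega
          rw [h0, card_empty, pow_zero, mul_one, h1, pow_one] at this
          have : (2 : ℝ) ≤ C.n := by exact_mod_cast h.nn
          linarith
        have h0 : C.new W T = ∅ := by
          refine sdiff_eq_empty_iff_subset.2 fun e he => Setup.mem_D.2
            ⟨(Setup.mem_D.1 he).1, fun b hb => ?_⟩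
          rw [← hT1]
          refine mem_erase.2 ⟨?_, (Setup.mem_D.1 he).2 b hb⟩
          rintro rfl
          exact hD e he hb
        have h1 : (T \ W).card = 1 := by
          rw [← hT1, card_sdiff_of_subset (erase_subset a T), card_erase_of_mem haT]
          have := card_pos.2 ⟨a, haT⟩
          omega
        rw [h0, h1, card_empty, pow_zero, mul_one, pow_one]
        refine Nat.cast_le.2 (le_trans ?_ ((card_univ (α := V)).trans_le h.hcard))
        refine card_le_card_of_injOn (fun g => g a) (fun g _ => mem_univ _) fun g hg g' hg' hgg => ?_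
        obtain ⟨hgT, hgW⟩ := Setup.mem_ext.1 hg
        obtain ⟨hgT', hgW'⟩ := Setup.mem_ext.1 hg'
        funext b
        by_cases hba : b = a
        · subst hba; exact hgg
        by_cases hbT : b ∈ T
        · have hbW : b ∈ W := hT1 ▸ mem_erase.2 ⟨hba, hbT⟩
          rw [hgW b hbW, hgW' b hbW]
        · rw [(Setup.mem_emb.1 hgT).1 b hbT, (Setup.mem_emb.1 hgT').1 b hbT]
    have hlt : (X \ T).card < k := by
      rw [← hk, card_sdiff_add_sdiff hWT.subset hTX]
      have : 0 < (T \ W).card := card_pos.2 (sdiff_nonempty.2 hWT.2)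
      omega
    have hrec := ih _ hlt T rfl hTX (Or.inr hclosedT)
    calc ((C.ext W X φ).card : ℝ)
        ≤ ∑ ψ ∈ C.ext W T φ, ((C.ext T X ψ).card : ℝ) := by
          exact_mod_cast Setup.ext_card_le_sum hWT.subset hTX φ
      _ ≤ (C.ext W T φ).card
            * ((C.n : ℝ) ^ (X \ T).card * (loss Λ s * C.q) ^ (C.new T X).card) := by
          rw [← nsmul_eq_mul]
          exact sum_le_card_nsmul _ _ _ fun ψ _ => hrec ψ
      _ ≤ (C.n : ℝ) ^ (T \ W).card * (loss Λ s * C.q) ^ (C.new W T).card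
            * ((C.n : ℝ) ^ (X \ T).card * (loss Λ s * C.q) ^ (C.new T X).card) :=
          mul_le_mul_of_nonneg_right (hchunk φ) (by positivity)
      _ = _ := by
          rw [card_sdiff_add_sdiff hWT.subset hTX, Setup.card_new_add hWT.subset hTX,
            pow_add, pow_add]
          ring

/-- The number of embeddings of the pattern. -/
theorem emb_bound (h : C.Hyp) {Λ s : ℝ} (hs : C.Expo Λ s) (X : Finset α) :
    ((C.emb X).card : ℝ) ≤ (C.n : ℝ) ^ X.card * (loss Λ s * C.q) ^ (C.D X).card := by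
  have h1 := ext_bound h hs X _ ∅ rfl (empty_subset X) (Or.inl rfl) (fun _ => C.v0)
  have h2 : C.ext ∅ X (fun _ => C.v0) = C.emb X :=
    filter_true_of_mem fun g _ a ha => absurd ha (notMem_empty a)
  have h3 : (C.new ∅ X) = C.D X := by
    refine sdiff_eq_self_of_disjoint (disjoint_left.2 fun e _ he => ?_)
    have := (Setup.mem_D.1 he).2 _ (Sym2.out_fst_mem e)
    exact absurd this (notMem_empty _)
  rwa [h2, h3, sdiff_empty] at h1

end Vale.Agent.P064
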