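import Mathlib

/-! Containment thresholds and expectation thresholds of random graphs. -/

namespace Vale.Agent.P064

open scoped Classical in
/-- The probability that the binomial random graph on `Fin n` equals `G`. -/
noncomputable def graphWeight (n : ℕ) (p : ℝ) (G : SimpleGraph (Fin n)) : ℝ :=
  p ^ G.edgeFinset.card * (1 - p) ^ (n.choose 2 - G.edgeFinset.card)

open scoped Classical in
/-- The probability that the random graph contains a copy of `H`. -/
noncomputable def containProb {v : ℕ} (n : ℕ) (p : ℝ) (H : SimpleGraph (Fin v)) : ℝ :=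
  ∑ G : SimpleGraph (Fin n), if H.IsContained G then graphWeight n p G else 0

open scoped Classical in
/-- The expected number of copies of `F` in the random graph. -/
noncomputable def expCopies {W : Type} (n : ℕ) (p : ℝ) (F : SimpleGraph W) : ℝ :=
  ∑ G : SimpleGraph (Fin n), graphWeight n p G * (G.copyCount F : ℝ)

/-- The threshold for containing `H`. -/
noncomputable def pc {v : ℕ} (n : ℕ) (H : SimpleGraph (Fin v)) : ℝ :=
  sInf {p : ℝ | p ∈ Set.Icc 0 1 ∧ 1 / 2 ≤ containProb n p H}

/-- The subgraph expectation threshold of `H`. -/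
noncomputable def pE {v : ℕ} (n : ℕ) (H : SimpleGraph (Fin v)) : ℝ :=
  sInf {p : ℝ | p ∈ Set.Icc 0 1 ∧ ∀ F : H.Subgraph, 1 / 2 ≤ expCopies n p F.coe}

open scoped Classical in
/-- The expectation threshold weighted by the number of copies inside `H`. -/
noncomputable def pETilde {v : ℕ} (n : ℕ) (H : SimpleGraph (Fin v)) : ℝ :=
  sInf {p : ℝ | p ∈ Set.Icc 0 1 ∧
    ∀ F : H.Subgraph, (H.copyCount F.coe : ℝ) / 2 ≤ expCopies n p F.coe}

end Vale.Agent.P064
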