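import Vale.Agent.P063.Fourier

/-! A spread family is covered by a few rounds of sparse random sampling. -/

set_option linter.unusedSectionVars false

namespace Vale.Agent.P064

open Finset Vale.Agent.P063

variable {X ι : Type*} [Fintype X] [DecidableEq X] [Fintype ι] [DecidableEq ι]

/-- The set selected by a point of the cube. -/
def sel (x : X → Bool) : Finset X := univ.filter fun e => x e = true

lemma sel_or (x y : X → Bool) : sel (fun e => x e || y e) = sel x ∪ sel y := by
  ext e; simp [sel]

/-- The indicator that no member of the family lies in the selected set. -/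
noncomputable def fail (s : Finset ι) (A : ι → Finset X) (x : X → Bool) : ℝ :=
  if ∃ i ∈ s, A i ⊆ sel x then 0 else 1

/-- `R`-spreadness of a subfamily, relative to the whole index type. -/
def IsSpread (s : Finset ι) (A : ι → Finset X) (R : ℝ) : Prop :=
  ∀ S : Finset X, S.Nonempty →
    ((s.filter fun i => S ⊆ A i).card : ℝ) * R ^ S.card ≤ Fintype.card ι

lemma Ex_or (p q : ℝ) (g : (X → Bool) → ℝ) :
    Ex p (fun x => Ex q (fun y => g fun e => x e || y e)) = Ex (p + q - p * q) g := by
  have h1 : ∀ (r : ℝ) (x : X → Bool), g x = ∑ z, g z * ∏ e, if x e = z e then (1 : ℝ) else 0 := by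
    intro _ x
    rw [sum_eq_single x]
    · simp
    · intro z _ hz
      obtain ⟨e, he⟩ := Function.ne_iff.1 hz
      rw [prod_eq_zero (mem_univ e) (if_neg (Ne.symm he)), mul_zero]
    · exact fun h => absurd (mem_univ x) h
  have h2 : ∀ (z : X → Bool), Ex p (fun x => Ex q (fun y =>
      ∏ e, if (x e || y e) = z e then (1 : ℝ) else 0)) = wt (p + q - p * q) z := by
    intro z
    have h3 : ∀ x : X → Bool, Ex q (fun y => ∏ e, if (x e || y e) = z e then (1 : ℝ) else 0)
        = ∏ e, (q * (if (x e || true) = z e then (1 : ℝ) else 0)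
            + (1 - q) * (if (x e || false) = z e then (1 : ℝ) else 0)) := fun x =>
      Ex_prod q fun e b => if (x e || b) = z e then (1 : ℝ) else 0
    rw [Ex_congr h3, Ex_prod p (fun (e : X) (b : Bool) =>
      q * (if (b || true) = z e then (1 : ℝ) else 0)
        + (1 - q) * (if (b || false) = z e then (1 : ℝ) else 0))]
    unfold wt
    refine prod_congr rfl fun e _ => ?_
    cases z e <;> simp <;> ring
  rw [Ex_congr (p := p) fun x => Ex_congr (p := q) fun y => h1 0 (fun e => x e || y e)]
  simp only [Ex_sum, Ex_const_mul, h2]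
  unfold Ex
  exact sum_congr rfl fun z _ => mul_comm _ _

lemma wt_disjoint_union {p : ℝ} (hp : 0 < p) (x : X → Bool) {T : Finset X}
    (hT : ∀ e ∈ T, x e = false) :
    wt p x = wt p (fun e => x e || decide (e ∈ T)) * ((1 - p) / p) ^ T.card := by
  unfold wt
  have h : ((1 - p) / p) ^ T.card = ∏ e, if e ∈ T then (1 - p) / p else 1 := by
    rw [prod_ite_mem, univ_inter, prod_const]
  rw [h, ← prod_mul_distrib]
  refine prod_congr rfl fun e _ => ?_
  by_cases he : e ∈ T
  · simp only [he, decide_true, Bool.or_true, hT e he, Bool.false_eq_true, if_false, if_true]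
    field_simp
  · simp [he]

/-- One round: minimal fragments exist and large ones are rare. -/
lemma round {p R : ℝ} (hp : 0 < p) (hp1 : p ≤ 1) (hR : 0 < R) (s : Finset ι) (A : ι → Finset X)
    (hA : IsSpread s A R) :
    ∃ frag : (X → Bool) → ι → Finset X,
      (∀ x, ∀ i ∈ s, frag x i ⊆ A i ∧ ∃ j ∈ s, A j ⊆ frag x i ∪ sel x) ∧
      ∀ l t : ℕ, (∀ i ∈ s, (A i).card ≤ l) → 1 ≤ t →
        Ex p (fun x => ((s.filter fun i => (frag x i).card = t).card : ℝ))
          ≤ (l.choose t : ℝ) * (1 / (p * R)) ^ t * Fintype.card ι := by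
  classical
  have hex : ∀ (x : X → Bool) (i : ι), ∃ T : Finset X, i ∈ s →
      (∃ j ∈ s, A j ⊆ A i ∪ sel x ∧ T = A j \ sel x) ∧
      ∀ j ∈ s, A j ⊆ A i ∪ sel x → T.card ≤ (A j \ sel x).card := by
    intro x i
    by_cases hi : i ∈ s
    · obtain ⟨j, hj, hmin⟩ := exists_min_image (s.filter fun j => A j ⊆ A i ∪ sel x)
        (fun j => (A j \ sel x).card) ⟨i, mem_filter.2 ⟨hi, subset_union_left⟩⟩
      refine ⟨A j \ sel x, fun _ => ⟨⟨j, (mem_filter.1 hj).1, (mem_filter.1 hj).2, rfl⟩, ?_⟩⟩
      exact fun j' hj' hsub => hmin j' (mem_filter.2 ⟨hj', hsub⟩)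
    · exact ⟨∅, fun h => absurd h hi⟩
  choose frag hfrag using hex
  have hbasic : ∀ x, ∀ i ∈ s, frag x i ⊆ A i ∧ ∃ j ∈ s, A j ⊆ frag x i ∪ sel x := by
    intro x i hi
    obtain ⟨j, hj, hsub, hT⟩ := (hfrag x i hi).1
    refine ⟨fun e he => ?_, j, hj, fun e he => ?_⟩
    · rw [hT, mem_sdiff] at he
      exact (mem_union.1 (hsub he.1)).resolve_right he.2
    · rw [hT]
      by_cases h : e ∈ sel x <;> simp [he, h]
  refine ⟨frag, hbasic, fun l t hl ht => ?_⟩
  set N := (Fintype.card ι : ℝ) with hN
  set big := fun x => s.filter fun i => (frag x i).card = t with hbig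
  set Ts := fun x => (big x).image (frag x) with hTs
  have hfib : ∀ x, ((big x).card : ℝ) ≤ (Ts x).card * (N / R ^ t) := by
    intro x
    rw [card_eq_sum_card_image (frag x) (big x), Nat.cast_sum, ← nsmul_eq_mul]
    refine sum_le_card_nsmul _ _ _ fun T hT => ?_
    obtain ⟨i, hi, rfl⟩ := mem_image.1 hT
    have hcard : (frag x i).card = t := (mem_filter.1 hi).2
    rw [le_div_iff₀ (pow_pos hR t)]
    refine le_trans (mul_le_mul_of_nonneg_right (Nat.cast_le.2 (card_le_card
      (t := s.filter fun i' => frag x i ⊆ A i') fun i' hi' => ?_)) (pow_nonneg hR.le t)) ?_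
    · obtain ⟨hi', heq⟩ := mem_filter.1 hi'
      have hi's := (mem_filter.1 hi').1
      exact mem_filter.2 ⟨hi's, heq ▸ (hbasic x i' hi's).1⟩
    · have := hA (frag x i) (card_pos.1 (by omega))
      rwa [hcard] at this
  set c := ((1 - p) / p) ^ t with hc
  have hc0 : 0 ≤ c := pow_nonneg (div_nonneg (by linarith) hp.le) t
  -- weighted count of the distinct fragments
  have hdistinct : ∑ x, wt p x * ((Ts x).card : ℝ) ≤ c * (l.choose t : ℝ) := by
    set pairs := (univ : Finset (X → Bool)).sigma Ts with hpairs
    set mz := fun (q : Σ _ : X → Bool, Finset X) (e : X) => q.1 e || decide (e ∈ q.2) with hmz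
    have hprop : ∀ q ∈ pairs, q.2.card = t ∧ (∀ e ∈ q.2, q.1 e = false) ∧
        (∃ j ∈ s, A j ⊆ sel (mz q)) ∧
        ∀ j ∈ s, A j ⊆ sel (mz q) → q.2 ⊆ A j := by
      rintro ⟨x, T⟩ hq
      obtain ⟨i, hi, heq⟩ := mem_image.1 (mem_sigma.1 hq).2
      dsimp only at heq
      subst heq
      obtain ⟨his, hcard⟩ := mem_filter.1 hi
      obtain ⟨hsubA, j, hj, hjsub⟩ := hbasic x i his
      have hsel : sel (mz ⟨x, frag x i⟩) = frag x i ∪ sel x := by
        ext e; simp [sel, mz, or_comm]
      refine ⟨hcard, fun e he => ?_, ⟨j, hj, by rw [hsel]; exact hjsub⟩, fun j' hj' hsub => ?_⟩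
      · obtain ⟨j0, -, -, hT⟩ := (hfrag x i his).1
        dsimp only at he
        rw [hT, mem_sdiff] at he
        simpa [sel] using he.2
      · rw [hsel] at hsub
        have hmin := (hfrag x i his).2 j' hj' (hsub.trans (union_subset_union_left hsubA))
        have hle : A j' \ sel x ⊆ frag x i := fun e he => by
          obtain ⟨h1, h2⟩ := mem_sdiff.1 he
          exact (mem_union.1 (hsub h1)).resolve_right h2
        show frag x i ⊆ A j'
        rw [← eq_of_subset_of_card_le hle hmin]
        exact sdiff_subset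
    calc ∑ x, wt p x * ((Ts x).card : ℝ) = ∑ q ∈ pairs, wt p q.1 := by
          rw [hpairs, sum_sigma]
          exact sum_congr rfl fun x _ => by simp only [sum_const, nsmul_eq_mul, mul_comm]
      _ = ∑ q ∈ pairs, wt p (mz q) * c := sum_congr rfl fun q hq => by
          obtain ⟨hcard, hdis, -, -⟩ := hprop q hq
          rw [wt_disjoint_union hp q.1 hdis, hcard, hc]
      _ = ∑ z ∈ pairs.image mz, ((pairs.filter fun q => mz q = z).card : ℝ) * (wt p z * c) := by
          rw [← sum_fiberwise_of_maps_to (t := pairs.image mz) (fun q hq => mem_image_of_mem mz hq)]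
          refine sum_congr rfl fun z _ => ?_
          rw [sum_congr rfl fun q hq => by rw [(mem_filter.1 hq).2], sum_const, nsmul_eq_mul]
      _ ≤ ∑ z ∈ pairs.image mz, (l.choose t : ℝ) * (wt p z * c) := by
          refine sum_le_sum fun z hz => mul_le_mul_of_nonneg_right (Nat.cast_le.2 ?_)
            (mul_nonneg (wt_nonneg hp.le hp1 z) hc0)
          obtain ⟨q0, hq0, rfl⟩ := mem_image.1 hz
          obtain ⟨-, -, ⟨j, hj, hjsub⟩, -⟩ := hprop q0 hq0
          calc (pairs.filter fun q => mz q = mz q0).card ≤ ((A j).powersetCard t).card := by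
                refine card_le_card_of_injOn (fun q => q.2) (fun q hq => ?_) (fun q hq q' hq' h => ?_)
                · obtain ⟨hq, heq⟩ := mem_filter.1 hq
                  obtain ⟨hcard, -, -, hmem⟩ := hprop q hq
                  exact mem_powersetCard.2 ⟨hmem j hj (heq ▸ hjsub), hcard⟩
                · obtain ⟨hq, heq⟩ := mem_filter.1 hq
                  obtain ⟨hq', heq'⟩ := mem_filter.1 hq'
                  have hd := (hprop q hq).2.1
                  have hd' := (hprop q' hq').2.1
                  obtain ⟨x, T⟩ := q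
                  obtain ⟨x', T'⟩ := q'
                  dsimp only at h hd hd'
                  subst h
                  have hx : x = x' := funext fun e => by
                    by_cases he : e ∈ T
                    · rw [hd e he, hd' e he]
                    · have := congrFun (heq.trans heq'.symm) e
                      simpa [mz, he] using this
                  subst hx
                  rfl
            _ ≤ l.choose t := by
                rw [card_powersetCard]; exact Nat.choose_le_choose t (hl j hj)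
      _ ≤ ∑ z : X → Bool, (l.choose t : ℝ) * (wt p z * c) :=
          sum_le_sum_of_subset_of_nonneg (subset_univ _) fun z _ _ =>
            mul_nonneg (Nat.cast_nonneg _) (mul_nonneg (wt_nonneg hp.le hp1 z) hc0)
      _ = c * (l.choose t : ℝ) := by
          have h := Ex_const (α := X) p 1
          unfold Ex at h
          simp only [mul_one] at h
          rw [← mul_sum, ← sum_mul, h, one_mul, mul_comm]
  have hN0 : 0 ≤ N := Nat.cast_nonneg _
  calc Ex p (fun x => ((big x).card : ℝ))
      ≤ ∑ x, wt p x * ((Ts x).card * (N / R ^ t)) :=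
        sum_le_sum fun x _ => mul_le_mul_of_nonneg_left (hfib x) (wt_nonneg hp.le hp1 x)
    _ = (∑ x, wt p x * ((Ts x).card : ℝ)) * (N / R ^ t) := by
        rw [sum_mul]; exact sum_congr rfl fun x _ => by ring
    _ ≤ c * (l.choose t : ℝ) * (N / R ^ t) := mul_le_mul_of_nonneg_right hdistinct (by positivity)
    _ ≤ (1 / p) ^ t * (l.choose t : ℝ) * (N / R ^ t) := by
        have : c ≤ (1 / p) ^ t :=
          pow_le_pow_left₀ (div_nonneg (by linarith) hp.le)
            (div_le_div_of_nonneg_right (by linarith) hp.le) t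
        gcongr
    _ = _ := by
        rw [one_div_pow, one_div_pow, mul_pow]
        field_simp

/-- The bias of the union of `k` rounds. -/
noncomputable def bias (p : ℝ) (k : ℕ) : ℝ := 1 - (1 - p) ^ k

/-- Several rounds cover a member of a spread family. -/
theorem rounds {p R : ℝ} (hp : 0 < p) (hp1 : p ≤ 1) (hR : 0 < R) (hpR : 12 ≤ p * R)
    [Nonempty ι] : ∀ (k : ℕ) (s : Finset ι) (A : ι → Finset X), (∀ i ∈ s, (A i).card < 2 ^ k) →
      IsSpread s A R →
      Ex (bias p k) (fail s A)
        ≤ ((Fintype.card ι : ℝ) - s.card) / Fintype.card ι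
          + ∑ t ∈ Ico 1 (2 ^ k), (1 / 3 : ℝ) ^ t
  | 0, s, A, hA, _ => by
      have hN : (0 : ℝ) < Fintype.card ι := Nat.cast_pos.2 Fintype.card_pos
      simp only [pow_zero, Ico_self, sum_empty, add_zero, bias, sub_self]
      rcases s.eq_empty_or_nonempty with rfl | ⟨i, hi⟩
      · rw [card_empty, Nat.cast_zero, sub_zero, div_self hN.ne']
        calc Ex (0 : ℝ) (fail (∅ : Finset ι) A) ≤ Ex (0 : ℝ) (fun _ : X → Bool => (1 : ℝ)) :=
              Ex_mono le_rfl zero_le_one fun x => by simp [fail]
          _ = 1 := Ex_const 0 1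
      · have hAi : A i = ∅ := card_eq_zero.1 (by simpa using hA i hi)
        have hzero : ∀ x, fail s A x = 0 := fun x => if_pos ⟨i, hi, by simp [hAi]⟩
        rw [Ex_congr (g := fun _ => (0 : ℝ)) hzero, Ex_const]
        have : (s.card : ℝ) ≤ Fintype.card ι := Nat.cast_le.2 (card_le_univ s)
        exact div_nonneg (by linarith) hN.le
  | k + 1, s, A, hA, hS => by
      classical
      have hN : (0 : ℝ) < Fintype.card ι := Nat.cast_pos.2 Fintype.card_pos
      set N := (Fintype.card ι : ℝ) with hNdef
      obtain ⟨frag, hbasic, hbound⟩ := round hp hp1 hR s A hS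
      have hq : bias p (k + 1) = p + bias p k - p * bias p k := by
        simp only [bias, pow_succ]; ring
      have hb : 0 ≤ bias p k ∧ bias p k ≤ 1 := by
        have h1 : 0 ≤ (1 - p) ^ k := pow_nonneg (by linarith) k
        have h2 : (1 - p) ^ k ≤ 1 := pow_le_one₀ (by linarith) (by linarith)
        constructor <;> simp only [bias] <;> linarith
      set δ := ∑ t ∈ Ico 1 (2 ^ k), (1 / 3 : ℝ) ^ t with hδ
      set mid := fun x => ∑ t ∈ Ico (2 ^ k) (2 ^ (k + 1)),
        ((s.filter fun i => (frag x i).card = t).card : ℝ) with hmid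
      have hpoint : ∀ x, Ex (bias p k) (fun y => fail s A fun e => x e || y e)
          ≤ (N - s.card + mid x) / N + δ := by
        intro x
        set s' := s.filter fun i => (frag x i).card < 2 ^ k with hs'
        have hspread : IsSpread s' (frag x) R := fun S hSne => by
          refine le_trans (mul_le_mul_of_nonneg_right (Nat.cast_le.2 (card_le_card fun i hi => ?_))
            (pow_nonneg hR.le _)) (hS S hSne)
          obtain ⟨hi, hsub⟩ := mem_filter.1 hi
          have his := (mem_filter.1 hi).1
          exact mem_filter.2 ⟨his, hsub.trans (hbasic x i his).1⟩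
        have hih := rounds hp hp1 hR hpR k s' (frag x) (fun i hi => (mem_filter.1 hi).2) hspread
        refine le_trans (Ex_mono hb.1 hb.2 fun y => ?_) (hih.trans (add_le_add ?_ le_rfl))
        · unfold fail
          by_cases h : ∃ i ∈ s', frag x i ⊆ sel y
          · obtain ⟨i, hi, hsub⟩ := h
            obtain ⟨-, j, hj, hjsub⟩ := hbasic x i (mem_filter.1 hi).1
            rw [if_pos (⟨j, hj, ?_⟩ : ∃ i ∈ s, A i ⊆ sel fun e => x e || y e)]
            · split_ifs <;> norm_num
            · rw [sel_or, union_comm]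
              exact hjsub.trans (union_subset_union_left hsub)
          · rw [if_neg h]
            split_ifs <;> norm_num
        · refine div_le_div_of_nonneg_right ?_ hN.le
          have hcover : (s.card : ℝ) ≤ s'.card + mid x := by
            have h1 := card_filter_add_card_filter_not (s := s)
              (fun i => (frag x i).card < 2 ^ k)
            have h2 : (s.filter fun i => ¬ (frag x i).card < 2 ^ k).card
                ≤ ∑ t ∈ Ico (2 ^ k) (2 ^ (k + 1)),
                    (s.filter fun i => (frag x i).card = t).card := by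
              refine (card_le_card fun i hi => ?_).trans card_biUnion_le
              obtain ⟨his, hge⟩ := mem_filter.1 hi
              have hlt : (frag x i).card < 2 ^ (k + 1) :=
                lt_of_le_of_lt (card_le_card (hbasic x i his).1) (hA i his)
              exact mem_biUnion.2 ⟨(frag x i).card, mem_Ico.2 ⟨not_lt.1 hge, hlt⟩,
                mem_filter.2 ⟨his, rfl⟩⟩
            have h3 : (s.card : ℝ) = s'.card + (s.filter fun i => ¬ (frag x i).card < 2 ^ k).card :=
              by exact_mod_cast h1.symm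
            rw [h3, hmid]
            have h4 : ((s.filter fun i => ¬ (frag x i).card < 2 ^ k).card : ℝ)
                ≤ ∑ t ∈ Ico (2 ^ k) (2 ^ (k + 1)),
                    ((s.filter fun i => (frag x i).card = t).card : ℝ) := by exact_mod_cast h2
            linarith
          linarith
      rw [hq, ← Ex_or]
      refine le_trans (Ex_mono hp.le hp1 hpoint) ?_
      have hsplit : ∑ t ∈ Ico 1 (2 ^ (k + 1)), (1 / 3 : ℝ) ^ t
          = δ + ∑ t ∈ Ico (2 ^ k) (2 ^ (k + 1)), (1 / 3 : ℝ) ^ t := by
        rw [hδ, sum_Ico_consecutive _ Nat.one_le_two_pow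
          (Nat.pow_le_pow_right two_pos (Nat.le_succ k))]
      have hmidE : Ex p mid ≤ (∑ t ∈ Ico (2 ^ k) (2 ^ (k + 1)), (1 / 3 : ℝ) ^ t) * N := by
        rw [hmid, Ex_sum, sum_mul]
        refine sum_le_sum fun t ht => ?_
        obtain ⟨ht1, ht2⟩ := mem_Ico.1 ht
        refine (hbound (2 ^ (k + 1)) t (fun i hi => (hA i hi).le)
          (le_trans Nat.one_le_two_pow ht1)).trans (mul_le_mul_of_nonneg_right ?_ hN.le)
        have h4 : ((2 ^ (k + 1)).choose t : ℝ) ≤ (4 : ℝ) ^ t := by
          have h := (Nat.choose_le_two_pow (2 ^ (k + 1)) t).trans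
            (Nat.pow_le_pow_right two_pos (show 2 ^ (k + 1) ≤ 2 * t by rw [pow_succ]; omega))
          rw [pow_mul] at h
          exact_mod_cast h
        calc ((2 ^ (k + 1)).choose t : ℝ) * (1 / (p * R)) ^ t
            ≤ (4 : ℝ) ^ t * (1 / 12) ^ t :=
              mul_le_mul h4 (pow_le_pow_left₀ (by positivity)
                (one_div_le_one_div_of_le (by norm_num) hpR) t) (by positivity) (by positivity)
          _ = _ := by rw [← mul_pow]; norm_num
      rw [Ex_add, Ex_const, hsplit]
      have e : Ex p (fun x => (N - s.card + mid x) / N) = (N - s.card) / N + Ex p mid / N := by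
        simp only [div_eq_mul_inv, Ex_mul_const, Ex_add, Ex_const]
        ring
      rw [e]
      have := (div_le_iff₀ hN).2 hmidE
      linarith

/-- A spread family is hit with probability at least one half. -/
theorem spread_hit {p R : ℝ} (hp : 0 < p) (hp1 : p ≤ 1) (hR : 0 < R) (hpR : 12 ≤ p * R)
    [Nonempty ι] (A : ι → Finset X) (k : ℕ) (hk : ∀ i, (A i).card < 2 ^ k)
    (hA : IsSpread univ A R) :
    1 / 2 ≤ Ex (bias p k) (fun x => if ∃ i, A i ⊆ sel x then (1 : ℝ) else 0) := by
  have h := rounds hp hp1 hR hpR k univ A (fun i _ => hk i) hA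
  rw [card_univ, sub_self, zero_div, zero_add] at h
  have hgeo : ∑ t ∈ Ico 1 (2 ^ k), (1 / 3 : ℝ) ^ t ≤ 1 / 2 := by
    refine (geom_sum_Ico_le_of_lt_one (by norm_num) (by norm_num)).trans (le_of_eq ?_)
    norm_num
  have hadd : Ex (bias p k) (fail univ A)
      + Ex (bias p k) (fun x => if ∃ i, A i ⊆ sel x then (1 : ℝ) else 0) = 1 := by
    rw [← Ex_add]; refine Eq.trans ?_ (Ex_const (α := X) (bias p k) 1)
    refine Ex_congr fun x => ?_
    simp only [fail, mem_univ, true_and]
    split_ifs <;> norm_num
  linarith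

lemma bias_le {p : ℝ} (hp1 : p ≤ 1) (k : ℕ) : bias p k ≤ k * p := by
  have h := one_add_mul_le_pow (a := -p) (by linarith) k
  simp only [bias]
  rw [← sub_eq_add_neg] at h
  linarith

end Vale.Agent.P064
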