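import Vale.Agent.P064.Defs
import Vale.Agent.P064.Chunk
import Vale.Agent.P064.Spread

/-! From expectation thresholds to containment thresholds. -/

set_option linter.unusedSectionVars false

namespace Vale.Agent.P064

open Finset Vale.Agent.P063

/-- The potential edges on `n` vertices. -/
abbrev Pair (n : ℕ) : Type := {e : Sym2 (Fin n) // ¬ e.IsDiag}

variable {n v : ℕ}

/-- The graph coded by a point of the cube. -/
def toGraph (x : Pair n → Bool) : SimpleGraph (Fin n) :=
  SimpleGraph.fromEdgeSet {e | ∃ h : ¬ e.IsDiag, x ⟨e, h⟩ = true}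

lemma mem_toGraph {x : Pair n → Bool} {e : Sym2 (Fin n)} :
    e ∈ (toGraph x).edgeSet ↔ ∃ h : ¬ e.IsDiag, x ⟨e, h⟩ = true := by
  simp only [toGraph, SimpleGraph.edgeSet_fromEdgeSet, Set.mem_diff, Set.mem_setOf_eq]
  exact ⟨fun h => h.1, fun h => ⟨h, h.1⟩⟩

lemma toGraph_bijective : Function.Bijective (toGraph (n := n)) := by
  classical
  constructor
  · intro x y h
    funext e
    obtain ⟨e, he⟩ := e
    have : e ∈ (toGraph x).edgeSet ↔ e ∈ (toGraph y).edgeSet := by rw [h]
    simp only [mem_toGraph, he, not_false_eq_true, exists_true_left] at this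
    cases hx : x ⟨e, he⟩ <;> cases hy : y ⟨e, he⟩ <;> simp_all
  · intro G
    refine ⟨fun e => decide (e.1 ∈ G.edgeSet), SimpleGraph.edgeSet_injective (Set.ext fun e => ?_)⟩
    rw [mem_toGraph]
    exact ⟨fun ⟨_, h⟩ => by simpa using h,
      fun h => ⟨G.not_isDiag_of_mem_edgeSet h, by simpa using h⟩⟩

open scoped Classical in
lemma weight_toGraph (p : ℝ) (x : Pair n → Bool) : graphWeight n p (toGraph x) = wt p x := by
  have hcard : (toGraph x).edgeFinset.card = (sel x).card := by
    symm
    refine card_bij (fun e _ => e.1) (fun e he => ?_) (fun a _ b _ h => Subtype.ext h)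
      fun e he => ?_
    · rw [SimpleGraph.mem_edgeFinset, mem_toGraph]
      exact ⟨e.2, by simpa [sel] using he⟩
    · rw [SimpleGraph.mem_edgeFinset, mem_toGraph] at he
      obtain ⟨h, hx⟩ := he
      exact ⟨⟨e, h⟩, by simpa [sel] using hx, rfl⟩
  have htot := card_filter_add_card_filter_not (s := (univ : Finset (Pair n))) (fun e => x e = true)
  rw [card_univ, Sym2.card_subtype_not_diag, Fintype.card_fin] at htot
  unfold graphWeight wt
  rw [prod_ite, prod_const, prod_const, hcard]
  congr 2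
  simp only [sel]
  omega

open scoped Classical in
lemma sum_graph_eq (p : ℝ) (g : SimpleGraph (Fin n) → ℝ) :
    ∑ G : SimpleGraph (Fin n), graphWeight n p G * g G = Ex p fun x => g (toGraph x) := by
  unfold Ex
  rw [← Fintype.sum_bijective toGraph toGraph_bijective
    (fun x => wt p x * g (toGraph x)) (fun G => graphWeight n p G * g G)
    (fun x => by rw [weight_toGraph])]

/-- The probability that given edges are all present. -/
lemma Ex_all (p : ℝ) (S : Finset (Pair n)) :
    Ex p (fun x => ∏ e ∈ S, if x e then (1 : ℝ) else 0) = p ^ S.card := by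
  have h := Ex_prod p (fun (e : Pair n) (b : Bool) =>
    if e ∈ S then (if b then (1 : ℝ) else 0) else 1)
  simp only [prod_ite_mem, univ_inter] at h
  rw [h]
  calc _ = ∏ e : Pair n, if e ∈ S then p else 1 :=
        prod_congr rfl fun e _ => by split_ifs <;> simp_all
    _ = _ := by rw [prod_ite_mem, univ_inter, prod_const]

/-- The subgraph with given vertices and edges. -/
def mkSub (H : SimpleGraph (Fin v)) (A : Finset (Fin v)) (E : Finset (Sym2 (Fin v)))
    (hE : ∀ e ∈ E, e ∈ H.edgeSet) (hA : ∀ e ∈ E, ∀ a ∈ e, a ∈ A) : H.Subgraph where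
  verts := ↑A
  Adj a b := s(a, b) ∈ E
  adj_sub h := hE _ h
  edge_vert h := hA _ h _ (Sym2.mem_mk_left _ _)
  symm := ⟨fun _ _ h => by rwa [Sym2.eq_swap]⟩

open scoped Classical in
/-- Automorphisms of a subgraph bound its expected number of copies from above. -/
lemma aut_bound {q : ℝ} (hq : 0 ≤ q) (hq1 : q ≤ 1) (H : SimpleGraph (Fin v))
    (hyp : ∀ F : H.Subgraph, 1 / 2 ≤ expCopies n q F.coe)
    (A : Finset (Fin v)) (E : Finset (Sym2 (Fin v))) (hE : ∀ e ∈ E, e ∈ H.edgeSet)
    (hA : ∀ e ∈ E, ∀ a ∈ e, a ∈ A) (Γ : Finset (Equiv.Perm (Fin v)))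
    (hΓ : ∀ σ ∈ Γ, (∀ a ∈ A, σ a ∈ A) ∧ ∀ e ∈ E, e.map σ ∈ E)
    (hinj : ∀ σ ∈ Γ, ∀ τ ∈ Γ, (∀ a ∈ A, σ a = τ a) → σ = τ) :
    (Γ.card : ℝ) ≤ 2 * (n : ℝ) ^ A.card * q ^ E.card := by
  set S := mkSub H A E hE hA with hS
  -- the possible placements
  set inst := univ.filter (fun B : (⊤ : SimpleGraph (Fin n)).Subgraph =>
    Nonempty (S.coe ≃g B.coe)) with hinst
  have hiso : ∀ B : {B // B ∈ inst}, Nonempty (S.coe ≃g B.1.coe) := fun B => (mem_filter.1 B.2).2
  set iso := fun B : {B // B ∈ inst} => (hiso B).some with hiso'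
  set img := fun (B : {B // B ∈ inst}) (e : Sym2 (Fin v)) =>
    Sym2.map (fun a => if h : a ∈ A then some ((iso B) ⟨a, h⟩).1 else none) e with himg
  have hexp : expCopies n q S.coe ≤ inst.card * q ^ E.card := by
    rw [expCopies, sum_graph_eq q fun G => ((G.copyCount S.coe : ℕ) : ℝ)]
    have hpt : ∀ x : Pair n → Bool, (((toGraph x).copyCount S.coe : ℕ) : ℝ)
        ≤ ∑ B ∈ inst, if ∀ e : Sym2 (Fin n), e ∈ B.edgeSet → ∃ h : ¬ e.IsDiag, x ⟨e, h⟩ = true
          then (1 : ℝ) else 0 := by
      intro x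
      rw [sum_boole, SimpleGraph.copyCount]
      refine Nat.cast_le.2 (card_le_card_of_injOn
        (fun B' => B'.map (SimpleGraph.Hom.ofLE le_top)) (fun B' hB' => ?_) (fun a _ b _ hab => ?_))
      · obtain ⟨e⟩ := (mem_filter.1 hB').2
        refine mem_filter.2 ⟨mem_filter.2 ⟨mem_univ _, ⟨e.trans
          ((SimpleGraph.Copy.ofLE (toGraph x) ⊤ le_top).isoSubgraphMap B')⟩⟩, fun z hz => ?_⟩
        induction z using Sym2.ind with
        | h a b =>
          rw [SimpleGraph.Subgraph.mem_edgeSet, SimpleGraph.Subgraph.map_adj] at hz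
          obtain ⟨a', b', hab', rfl, rfl⟩ := hz
          exact mem_toGraph.1 (B'.adj_sub hab')
      · refine SimpleGraph.Subgraph.ext ?_ ?_
        · have := congrArg SimpleGraph.Subgraph.verts hab
          simpa using this
        · funext c d
          have := congrArg (fun B => B.Adj c d) hab
          simpa [Relation.map_apply] using this
    refine (Ex_mono hq hq1 hpt).trans (le_of_eq ?_)
    rw [Ex_sum, ← nsmul_eq_mul, ← sum_const]
    refine sum_congr rfl fun B hB => ?_
    obtain ⟨e⟩ := (mem_filter.1 hB).2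
    set EB := univ.filter (fun z : Pair n => z.1 ∈ B.edgeSet) with hEB
    have hcard : EB.card = E.card := by
      symm
      refine card_bij (fun z hz => ⟨Sym2.map (fun a => if h : a ∈ A then (e ⟨a, h⟩).1 else
          (e ⟨z.out.1, hA z hz _ (Sym2.out_fst_mem z)⟩).1) z, ?_⟩) (fun z hz => ?_)
        (fun z hz z' hz' h => ?_) (fun w hw => ?_)
      · induction z using Sym2.ind with
        | h a b =>
          have ha := hA _ hz a (Sym2.mem_mk_left a b)
          have hb := hA _ hz b (Sym2.mem_mk_right a b)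
          simp only [Sym2.map_mk, dif_pos ha, dif_pos hb, Sym2.mk_isDiag_iff]
          intro hc
          have := e.injective (Subtype.ext hc)
          exact (H.ne_of_adj (hE _ hz)) (congrArg Subtype.val this)
      · refine mem_filter.2 ⟨mem_univ _, ?_⟩
        induction z using Sym2.ind with
        | h a b =>
          have ha := hA _ hz a (Sym2.mem_mk_left a b)
          have hb := hA _ hz b (Sym2.mem_mk_right a b)
          simp only [Sym2.map_mk, dif_pos ha, dif_pos hb, SimpleGraph.Subgraph.mem_edgeSet]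
          exact e.map_rel_iff.2 (show S.coe.Adj ⟨a, ha⟩ ⟨b, hb⟩ from hz)
      · induction z using Sym2.ind with
        | h a b =>
          induction z' using Sym2.ind with
          | h c d =>
            have ha := hA _ hz a (Sym2.mem_mk_left a b)
            have hb := hA _ hz b (Sym2.mem_mk_right a b)
            have hc := hA _ hz' c (Sym2.mem_mk_left c d)
            have hd := hA _ hz' d (Sym2.mem_mk_right c d)
            simp only [Subtype.mk.injEq, Sym2.map_mk, dif_pos ha, dif_pos hb, dif_pos hc,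
              dif_pos hd, Sym2.eq_iff, ← Subtype.ext_iff] at h
            rcases h with ⟨h1, h2⟩ | ⟨h1, h2⟩
            · have e1 : a = c := congrArg Subtype.val (e.injective h1)
              have e2 : b = d := congrArg Subtype.val (e.injective h2)
              rw [e1, e2]
            · have e1 : a = d := congrArg Subtype.val (e.injective h1)
              have e2 : b = c := congrArg Subtype.val (e.injective h2)
              rw [e1, e2, Sym2.eq_swap]
      · obtain ⟨w, hwd⟩ := w
        have hw' : w ∈ B.edgeSet := (mem_filter.1 hw).2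
        induction w using Sym2.ind with
        | h c d =>
          have hcd : B.Adj c d := hw'
          obtain ⟨⟨a, ha⟩, hea⟩ := e.surjective ⟨c, B.edge_vert hcd⟩
          obtain ⟨⟨b, hb⟩, heb⟩ := e.surjective ⟨d, B.edge_vert hcd.symm⟩
          have ha' : a ∈ A := ha
          have hb' : b ∈ A := hb
          have hab : s(a, b) ∈ E := by
            have : B.coe.Adj (e ⟨a, ha⟩) (e ⟨b, hb⟩) := by rw [hea, heb]; exact hcd
            exact e.map_rel_iff.1 this
          refine ⟨s(a, b), hab, Subtype.ext ?_⟩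
          simp only [Sym2.map_mk, dif_pos ha', dif_pos hb']
          rw [hea, heb]
    rw [← hcard, ← Ex_all q EB]
    refine Ex_congr fun x => ?_
    split_ifs with h
    · symm
      refine (prod_eq_one fun z hz => if_pos ?_).symm.symm
      obtain ⟨_, hx⟩ := h z.1 (mem_filter.1 hz).2
      exact hx
    · simp only [not_forall] at h
      obtain ⟨z, hz, hzx⟩ := h
      have hnd : ¬ z.IsDiag := SimpleGraph.not_isDiag_of_mem_edgeSet _ (B.edgeSet_subset hz)
      symm
      exact prod_eq_zero (mem_filter.2 ⟨mem_univ (⟨z, hnd⟩ : Pair n), hz⟩)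
        (if_neg fun hx => hzx ⟨hnd, hx⟩)
  have hcount : inst.card * Γ.card ≤ n ^ A.card := by
    calc inst.card * Γ.card = (inst.attach ×ˢ Γ.attach).card := by simp
      _ ≤ (univ : Finset ({a // a ∈ A} → Fin n)).card := by
          refine card_le_card_of_injOn
            (fun Q a => ((iso Q.1) ⟨Q.2.1 a.1, (hΓ _ Q.2.2).1 a.1 a.2⟩).1) (fun _ _ => mem_univ _)
            fun Q _ Q' _ hQ => ?_
          have hval : ∀ a (ha : a ∈ A), ((iso Q.1) ⟨Q.2.1 a, (hΓ _ Q.2.2).1 a ha⟩).1
              = ((iso Q'.1) ⟨Q'.2.1 a, (hΓ _ Q'.2.2).1 a ha⟩).1 := fun a ha =>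
            congrFun hQ ⟨a, ha⟩
          have hperm : ∀ σ ∈ Γ, ∀ b ∈ A, ∃ a ∈ A, σ a = b := by
            intro σ hσ b hb
            have hsub : A.image σ ⊆ A := image_subset_iff.2 (hΓ σ hσ).1
            have : A.image σ = A :=
              eq_of_subset_of_card_le hsub (card_image_of_injective _ σ.injective).ge
            exact mem_image.1 (this.symm ▸ hb)
          have hEperm : ∀ σ ∈ Γ, ∀ z ∈ E, ∃ w ∈ E, w.map σ = z := by
            intro σ hσ z hz
            have hsub : E.image (Sym2.map σ) ⊆ E := image_subset_iff.2 (hΓ σ hσ).2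
            have : E.image (Sym2.map σ) = E := eq_of_subset_of_card_le hsub
              (card_image_of_injective _ (Sym2.map.injective σ.injective)).ge
            exact mem_image.1 (this.symm ▸ hz)
          have hverts : ∀ (P P' : {B // B ∈ inst} × {σ // σ ∈ Γ}),
              (∀ a (ha : a ∈ A), ((iso P.1) ⟨P.2.1 a, (hΓ _ P.2.2).1 a ha⟩).1
                = ((iso P'.1) ⟨P'.2.1 a, (hΓ _ P'.2.2).1 a ha⟩).1) →
              (∀ c, c ∈ P.1.1.verts → c ∈ P'.1.1.verts)
                ∧ ∀ c d, P.1.1.Adj c d → P'.1.1.Adj c d := by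
            intro P P' hP
            constructor
            · intro c hc
              obtain ⟨⟨b, hb⟩, hbc⟩ := (iso P.1).surjective ⟨c, hc⟩
              obtain ⟨a, ha, rfl⟩ := hperm _ P.2.2 b hb
              have h1 := hP a ha
              rw [hbc] at h1
              simp only at h1
              rw [h1]
              exact ((iso P'.1) _).2
            · intro c d hcd
              obtain ⟨⟨b, hb⟩, hbc⟩ := (iso P.1).surjective ⟨c, P.1.1.edge_vert hcd⟩
              obtain ⟨⟨b', hb'⟩, hbd⟩ := (iso P.1).surjective ⟨d, P.1.1.edge_vert hcd.symm⟩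
              obtain ⟨a, ha, rfl⟩ := hperm _ P.2.2 b hb
              obtain ⟨a', ha', rfl⟩ := hperm _ P.2.2 b' hb'
              have hadj : S.coe.Adj ⟨P.2.1 a, hb⟩ ⟨P.2.1 a', hb'⟩ := by
                refine (iso P.1).map_rel_iff.1 ?_
                rw [hbc, hbd]
                exact hcd
              obtain ⟨w, hw, hwmap⟩ := hEperm _ P.2.2 _ hadj
              have hww : w = s(a, a') :=
                Sym2.map.injective P.2.1.injective (hwmap.trans (Sym2.map_mk _ _ _).symm)
              have h2 : s(P'.2.1 a, P'.2.1 a') ∈ E := by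
                have := (hΓ _ P'.2.2).2 w hw
                rwa [hww, Sym2.map_mk] at this
              have h3 : P'.1.1.coe.Adj ((iso P'.1) ⟨P'.2.1 a, (hΓ _ P'.2.2).1 a ha⟩)
                  ((iso P'.1) ⟨P'.2.1 a', (hΓ _ P'.2.2).1 a' ha'⟩) :=
                (iso P'.1).map_rel_iff.2 h2
              have e1 := hP a ha
              have e2 := hP a' ha'
              rw [hbc] at e1
              rw [hbd] at e2
              simp only at e1 e2
              rw [e1, e2]
              exact h3
          have hB : Q.1 = Q'.1 := by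
            obtain ⟨v1, a1⟩ := hverts Q Q' hval
            obtain ⟨v2, a2⟩ := hverts Q' Q fun a ha => (hval a ha).symm
            exact Subtype.ext (SimpleGraph.Subgraph.ext (Set.ext fun c => ⟨v1 c, v2 c⟩)
              (funext fun c => funext fun d => propext ⟨a1 c d, a2 c d⟩))
          refine Prod.ext hB (Subtype.ext (hinj _ Q.2.2 _ Q'.2.2 fun a ha => ?_))
          have := hval a ha
          rw [hB] at this
          exact congrArg Subtype.val ((iso Q'.1).injective (Subtype.ext this))
      _ = n ^ A.card := by simp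
  have h1 := (hyp S).trans hexp
  have h2 : (inst.card : ℝ) * Γ.card ≤ (n : ℝ) ^ A.card := by exact_mod_cast hcount
  have h3 := mul_le_mul_of_nonneg_right h2 (pow_nonneg hq E.card)
  nlinarith [(Γ.card.cast_nonneg : (0 : ℝ) ≤ Γ.card)]

lemma pow_le_exp_mul_desc : ∀ (n x : ℕ), x ≤ n →
    (n : ℝ) ^ x ≤ Real.exp x * n.descFactorial x := by
  intro n x hx
  have key : n ^ x * x.factorial ≤ x ^ x * n.descFactorial x := by
    have h : ∀ i ∈ range x, n * (x - i) ≤ x * (n - i) := by
      intro i hi
      have : i < x := mem_range.1 hi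
      rw [Nat.mul_sub, Nat.mul_sub, mul_comm x n]
      have := Nat.mul_le_mul_right i hx
      omega
    have := prod_le_prod' h
    rw [prod_mul_distrib, prod_mul_distrib, prod_const, prod_const, card_range,
      ← Nat.descFactorial_eq_prod_range, ← Nat.descFactorial_eq_prod_range,
      Nat.descFactorial_self] at this
    exact this
  have key' : (n : ℝ) ^ x * x.factorial ≤ (x : ℝ) ^ x * n.descFactorial x := by exact_mod_cast key
  refine le_of_mul_le_mul_right (key'.trans ?_) (Nat.cast_pos.2 (Nat.factorial_pos x))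
  calc (x : ℝ) ^ x * n.descFactorial x ≤ (Real.exp x * x.factorial) * n.descFactorial x :=
        mul_le_mul_of_nonneg_right (pow_self_le x) (Nat.cast_nonneg _)
    _ = _ := by ring

/-- The edges of a placed copy of `H`. -/
noncomputable def copyEdges (H : SimpleGraph (Fin v)) (π : Fin v ↪ Fin n) : Finset (Pair n) :=
  open scoped Classical in univ.filter fun z => ∃ w ∈ H.edgeSet, w.map π = z.1

open scoped Classical in
/-- Random copies of `H` are spread. -/
lemma copies_spread {q : ℝ} (hn : 2 ≤ n) (hv : v ≤ n) (hq : 0 < q) (hqe : Real.exp 1 * q ≤ 1)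
    (H : SimpleGraph (Fin v)) (v0 : Fin v)
    (hyp : ∀ F : H.Subgraph, 1 / 2 ≤ expCopies n q F.coe) {Λ s : ℝ} (hs0 : 0 ≤ s)
    (hs : 1 ≤ s ∨ -Real.log q ≤ s * Real.log n) (hΛ1 : 1 ≤ Λ) (hΛn : Λ ≤ 1 + Real.log n)
    (hw : 1 + Real.log n ≤ Λ ∨
      ∀ z : Fin v, ((H.edgeFinset.filter fun e => z ∈ e).card : ℝ) ≤ Λ) :
    IsSpread (univ : Finset (Fin v ↪ Fin n)) (copyEdges H)
      (1 / (Real.exp 1 ^ 2 * (loss Λ s * q))) := by
  intro S hS
  set DF := S.map (Function.Embedding.subtype _) with hDF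
  set X := univ.filter (fun a : Fin n => ∃ e ∈ DF, a ∈ e) with hX
  set C : Setup (Fin n) (Fin v) := ⟨v0, DF, H.edgeFinset, n, q⟩ with hC
  have hq1 : q ≤ 1 := by nlinarith [Real.add_one_le_exp (1 : ℝ)]
  have hH : C.Hyp := ⟨hn, hq, hqe, by simpa using hv,
    fun e he => by obtain ⟨z, -, rfl⟩ := mem_map.1 he; exact z.2,
    fun A E hE hA Γ hΓ hinj => aut_bound hq.le hq1 H hyp A E
      (fun e he => SimpleGraph.mem_edgeFinset.1 (hE he)) hA Γ hΓ hinj⟩
  have hDX : C.D X = DF := filter_true_of_mem fun e he => fun a ha =>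
    mem_filter.2 ⟨mem_univ a, e, he, Sym2.mem_toFinset.1 ha⟩
  have hemb := emb_bound hH (Λ := Λ) (s := s) ⟨⟨hs0, hs⟩, hΛ1, hΛn, hw⟩ X
  rw [hDX] at hemb
  have hDcard : DF.card = S.card := card_map _
  rw [hDcard] at hemb
  set good := (univ : Finset (Fin v ↪ Fin n)).filter fun π => S ⊆ copyEdges H π with hgood
  set back := fun (π : Fin v ↪ Fin n) (a : Fin n) =>
    if a ∈ X then (if h : ∃ w, π w = a then h.choose else v0) else v0 with hback
  have hpre : ∀ π ∈ good, ∀ a ∈ X, π (back π a) = a := by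
    intro π hπ a ha
    obtain ⟨e, he, hae⟩ := (mem_filter.1 ha).2
    obtain ⟨z, hz, rfl⟩ := mem_map.1 he
    obtain ⟨w, -, hw⟩ := (mem_filter.1 ((mem_filter.1 hπ).2 hz)).2
    have hae' : a ∈ w.map π := hw ▸ hae
    obtain ⟨b, -, rfl⟩ := Sym2.mem_map.1 hae'
    have hex : ∃ w', π w' = π b := ⟨b, rfl⟩
    simp only [hback, ha, if_true, dif_pos hex]
    exact hex.choose_spec
  have himg : good.image back ⊆ C.emb X := by
    intro f hf
    obtain ⟨π, hπ, rfl⟩ := mem_image.1 hf
    refine Setup.mem_emb.2 ⟨fun a ha => if_neg ha, fun a ha b hb hab => ?_, fun e he => ?_⟩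
    · rw [← hpre π hπ a ha, ← hpre π hπ b hb, hab]
    · obtain ⟨heD, heX⟩ := Setup.mem_D.1 he
      obtain ⟨z, hz, rfl⟩ := mem_map.1 heD
      obtain ⟨w, hwH, hw⟩ := (mem_filter.1 ((mem_filter.1 hπ).2 hz)).2
      rw [SimpleGraph.mem_edgeFinset]
      convert hwH
      refine Sym2.map.injective π.injective ?_
      rw [Sym2.map_map, hw]
      calc Sym2.map (⇑π ∘ back π) z.1 = Sym2.map id z.1 :=
            Sym2.map_congr fun a ha => hpre π hπ a (heX a ha)
        _ = z.1 := Sym2.map_id' ▸ rfl
  have hxv : X.card ≤ v ∨ good = ∅ := by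
    rcases good.eq_empty_or_nonempty with h | ⟨π, hπ⟩
    · exact Or.inr h
    · left
      calc X.card ≤ (univ : Finset (Fin v)).card :=
            card_le_card_of_injOn (back π) (fun _ _ => mem_univ _) fun a ha b hb h => by
              rw [← hpre π hπ a ha, ← hpre π hπ b hb, h]
        _ = v := by simp
  have hLq : 0 < loss Λ s * q :=
    mul_pos (loss_pos hΛ1 hs0) hq
  rw [one_div_pow, mul_one_div, div_le_iff₀ (by positivity)]
  change (good.card : ℝ) ≤ _
  rcases hxv with hxv | h0
  swap
  · rw [h0, card_empty, Nat.cast_zero]; positivity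
  have hfib : ∀ f ∈ good.image back, (good.filter fun π => back π = f).card
      ≤ (n - X.card).descFactorial (v - X.card) := by
    intro f hf
    obtain ⟨π0, hπ0, rfl⟩ := mem_image.1 hf
    set K := X.image (back π0) with hK
    have hKcard : K.card = X.card := card_image_of_injOn fun a ha b hb h => by
      rw [← hpre π0 hπ0 a ha, ← hpre π0 hπ0 b hb, h]
    have hfix : ∀ π ∈ good.filter (fun π => back π = back π0), ∀ w ∈ K, π w = π0 w := by
      intro π hπ w hw
      obtain ⟨hπg, hπb⟩ := mem_filter.1 hπ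
      obtain ⟨a, ha, rfl⟩ := mem_image.1 hw
      rw [hpre π0 hπ0 a ha, ← hπb, hpre π hπg a ha]
    have hout : ∀ π ∈ good.filter (fun π => back π = back π0), ∀ w, w ∉ K → π w ∉ X := by
      intro π hπ w hw hX'
      obtain ⟨hπg, hπb⟩ := mem_filter.1 hπ
      refine hw (mem_image.2 ⟨π w, hX', ?_⟩)
      rw [← hπb]
      exact π.injective (hpre π hπg (π w) hX')
    calc (good.filter fun π => back π = back π0).card
        ≤ ((univ : Finset ({w // w ∉ K} ↪ {a // a ∉ X}))).card := by
          let F : {π // π ∈ good.filter (fun π => back π = back π0)} →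
              ({w // w ∉ K} ↪ {a // a ∉ X}) := fun π =>
            ⟨fun w => ⟨π.1 w.1, hout π.1 π.2 w.1 w.2⟩, fun a b h =>
              Subtype.ext (π.1.injective (congrArg Subtype.val h))⟩
          rw [← card_attach]
          refine card_le_card_of_injOn F (fun _ _ => mem_univ _) fun π _ π' _ h => ?_
          refine Subtype.ext (Function.Embedding.ext fun w => ?_)
          by_cases hw : w ∈ K
          · rw [hfix π.1 π.2 w hw, hfix π'.1 π'.2 w hw]
          · exact congrArg Subtype.val (DFunLike.congr_fun h (⟨w, hw⟩ : {w // w ∉ K}))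
      _ = _ := by
          rw [card_univ, Fintype.card_embedding_eq, Fintype.card_subtype_compl,
            Fintype.card_subtype_compl, Fintype.card_coe, Fintype.card_coe, hKcard,
            Fintype.card_fin, Fintype.card_fin]
  have hgoodcard : good.card ≤ (C.emb X).card * (n - X.card).descFactorial (v - X.card) := by
    calc good.card ≤ (n - X.card).descFactorial (v - X.card) * (good.image back).card :=
          card_le_mul_card_image good _ hfib
      _ ≤ _ := by rw [mul_comm]; exact Nat.mul_le_mul_right _ (card_le_card himg)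
  have hX2 : X.card ≤ 2 * S.card := by
    calc X.card ≤ (DF.biUnion fun e => e.toFinset).card := card_le_card fun a ha => by
          obtain ⟨e, he, hae⟩ := (mem_filter.1 ha).2
          exact mem_biUnion.2 ⟨e, he, Sym2.mem_toFinset.2 hae⟩
      _ ≤ DF.card * 2 := card_biUnion_le.trans (by
          rw [← smul_eq_mul, ← sum_const]
          exact sum_le_sum fun e _ => by rw [Sym2.card_toFinset]; split_ifs <;> omega)
      _ = _ := by rw [hDcard, mul_comm]
  have hexp : Real.exp X.card ≤ (Real.exp 1 ^ 2) ^ S.card := by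
    rw [← pow_mul, ← Real.exp_nat_mul, mul_one, Real.exp_le_exp]
    exact_mod_cast hX2
  have hdf : (n.descFactorial v : ℝ)
      = (n.descFactorial X.card : ℝ) * ((n - X.card).descFactorial (v - X.card) : ℝ) := by
    have h1 := Nat.factorial_mul_descFactorial hv
    have h2 := Nat.factorial_mul_descFactorial (hxv.trans hv)
    have h3 := Nat.factorial_mul_descFactorial (show v - X.card ≤ n - X.card by omega)
    rw [show n - X.card - (v - X.card) = n - v by omega] at h3
    have h4 : (n - v).factorial * (n.descFactorial X.card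
        * (n - X.card).descFactorial (v - X.card)) = (n - v).factorial * n.descFactorial v := by
      rw [h1, mul_left_comm, h3, mul_comm, h2]
    exact_mod_cast (Nat.eq_of_mul_eq_mul_left (Nat.factorial_pos _) h4).symm
  calc (good.card : ℝ)
      ≤ ((C.emb X).card : ℝ) * ((n - X.card).descFactorial (v - X.card) : ℝ) := by
        exact_mod_cast hgoodcard
    _ ≤ (n : ℝ) ^ X.card * (loss Λ s * q) ^ S.card
          * ((n - X.card).descFactorial (v - X.card) : ℝ) := by gcongr
    _ ≤ (Real.exp X.card * n.descFactorial X.card) * (loss Λ s * q) ^ S.card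
          * ((n - X.card).descFactorial (v - X.card) : ℝ) := by
        gcongr
        exact pow_le_exp_mul_desc n X.card (hxv.trans hv)
    _ ≤ ((Real.exp 1 ^ 2) ^ S.card * n.descFactorial X.card) * (loss Λ s * q) ^ S.card
          * ((n - X.card).descFactorial (v - X.card) : ℝ) := by gcongr
    _ = _ := by
        rw [Fintype.card_embedding_eq, Fintype.card_fin, Fintype.card_fin, hdf, mul_pow]
        ring

open scoped Classical in
lemma contained_of_copy (H : SimpleGraph (Fin v)) (π : Fin v ↪ Fin n) (x : Pair n → Bool)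
    (h : copyEdges H π ⊆ sel x) : H.IsContained (toGraph x) := by
  refine ⟨⟨⟨π, fun {a b} hab => ?_⟩, π.injective⟩⟩
  have hd : ¬ (s(π a, π b) : Sym2 (Fin n)).IsDiag := by
    rw [Sym2.mk_isDiag_iff]
    exact fun h' => hab.ne (π.injective h')
  have hmem : (⟨s(π a, π b), hd⟩ : Pair n) ∈ copyEdges H π :=
    mem_filter.2 ⟨mem_univ _, s(a, b), hab, Sym2.map_mk _ _ _⟩
  have := h hmem
  rw [← SimpleGraph.mem_edgeSet, mem_toGraph]
  exact ⟨hd, by simpa [sel] using this⟩

open scoped Classical in
lemma containProb_one (hv : v ≤ n) (H : SimpleGraph (Fin v)) : containProb n 1 H = 1 := by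
  have h : containProb n 1 H
      = Ex 1 (fun x : Pair n → Bool => if H.IsContained (toGraph x) then (1 : ℝ) else 0) := by
    rw [← sum_graph_eq 1 fun G => if H.IsContained G then (1 : ℝ) else 0]
    exact sum_congr rfl fun G _ => by rw [mul_ite, mul_one, mul_zero]
  rw [h, Ex, sum_eq_single (fun _ => true)]
  · have hw : wt (1 : ℝ) (fun _ : Pair n => true) = 1 := by simp [wt]
    rw [hw, one_mul, if_pos (contained_of_copy H (Fin.castLEEmb hv) _ fun e _ => by simp [sel])]
  · intro x _ hx
    obtain ⟨e, he⟩ := Function.ne_iff.1 hx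
    have hf : x e = false := by simpa using he
    simp only [wt]
    rw [prod_eq_zero (mem_univ e) (by simp [hf]), zero_mul]
  · exact fun h => absurd (mem_univ _) h

open scoped Classical in
lemma pE_spec (hv : v ≤ n) (H : SimpleGraph (Fin v)) :
    pE n H ∈ Set.Icc (0 : ℝ) 1 ∧ ∀ F : H.Subgraph, 1 / 2 ≤ expCopies n (pE n H) F.coe := by
  have hclosed : IsClosed {p : ℝ | p ∈ Set.Icc 0 1 ∧ ∀ F : H.Subgraph, 1 / 2 ≤ expCopies n p F.coe} := by
    simp only [Set.setOf_and, Set.setOf_forall]
    refine isClosed_Icc.inter (isClosed_iInter fun F => isClosed_le continuous_const ?_)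
    unfold expCopies graphWeight
    fun_prop
  refine hclosed.csInf_mem ⟨1, ⟨zero_le_one, le_rfl⟩, fun F => ?_⟩ ⟨0, fun p hp => hp.1.1⟩
  have hF : F.coe.IsContained (⊤ : SimpleGraph (Fin n)) :=
    F.coe_isContained.trans ⟨⟨⟨Fin.castLEEmb hv, fun {a b} hab => by simpa using hab.ne⟩,
      (Fin.castLEEmb hv).injective⟩⟩
  have htop : toGraph (fun _ : Pair n => true) = ⊤ := by
    refine SimpleGraph.edgeSet_injective (Set.ext fun e => ?_)
    rw [mem_toGraph, SimpleGraph.edgeSet_top]
    exact ⟨fun ⟨h, _⟩ => h, fun h => ⟨h, rfl⟩⟩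
  rw [expCopies, sum_graph_eq 1 fun G => (G.copyCount F.coe : ℝ), Ex,
    sum_eq_single (fun _ => true)]
  · have hw : wt (1 : ℝ) (fun _ : Pair n => true) = 1 := by simp [wt]
    rw [hw, one_mul, htop]
    have : (1 : ℝ) ≤ ((⊤ : SimpleGraph (Fin n)).copyCount F.coe : ℝ) :=
      Nat.one_le_cast.2 (SimpleGraph.copyCount_pos.2 hF)
    linarith
  · intro x _ hx
    obtain ⟨e, he⟩ := Function.ne_iff.1 hx
    have hf : x e = false := by simpa using he
    simp only [wt]
    rw [prod_eq_zero (mem_univ e) (by simp [hf]), zero_mul]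
  · exact fun h => absurd (mem_univ _) h

lemma pE_pos (hn : 2 ≤ n) (hv : v ≤ n) (H : SimpleGraph (Fin v)) (he : H ≠ ⊥) : 0 < pE n H := by
  obtain ⟨⟨h0, h1⟩, hyp⟩ := pE_spec hv H
  refine lt_of_le_of_ne h0 fun heq => ?_
  rw [← heq] at hyp
  obtain ⟨e, hee⟩ := SimpleGraph.edgeSet_nonempty.2 he
  have h := aut_bound le_rfl zero_le_one H hyp univ {e} (by simpa using hee)
    (fun _ _ a _ => mem_univ a) {1} (fun σ hσ => by rw [mem_singleton] at hσ; subst hσ; simp)
    (fun σ hσ τ hτ _ => by rw [mem_singleton.1 hσ, mem_singleton.1 hτ])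
  simp only [card_singleton, Nat.cast_one, pow_one, mul_zero] at h
  linarith

lemma width_rpow_le {Λ M s : ℝ} (hΛ : 0 ≤ Λ) (hM : Λ ≤ 3 * M) (hs0 : 0 ≤ s) (hs1 : s ≤ 1) :
    Λ ^ s ≤ 3 * M ^ s := by
  calc Λ ^ s ≤ (3 * M) ^ s := Real.rpow_le_rpow hΛ hM hs0
    _ = (3 : ℝ) ^ s * M ^ s := Real.mul_rpow (by norm_num) (by linarith)
    _ ≤ _ := by
        refine mul_le_mul_of_nonneg_right ?_ (Real.rpow_nonneg (by linarith) s)
        exact (Real.rpow_le_rpow_of_exponent_le (by norm_num) hs1).trans_eq (Real.rpow_one 3)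

/-- The widths available for a graph: the full one or a degree bound. -/
lemma deg_card_le {D : ℕ} (H : SimpleGraph (Fin v)) [DecidableRel H.Adj]
    (hD : ∀ a, (H.neighborSet a).ncard ≤ D) (z : Fin v) :
    (H.edgeFinset.filter fun e => z ∈ e).card ≤ D := by
  rw [← H.incidenceFinset_eq_filter, H.card_incidenceFinset_eq_degree,
    ← H.card_neighborFinset_eq_degree, SimpleGraph.neighborFinset_def,
    ← Set.ncard_eq_toFinset_card']
  exact hD z

open scoped Classical in
/-- The improved bound towards the second Kahn-Kalai conjecture. -/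
theorem pc_le : ∃ K : ℝ, ∀ n v : ℕ, 2 ≤ n → v ≤ n → ∀ H : SimpleGraph (Fin v), H ≠ ⊥ →
    ∀ s : ℝ, 0 ≤ s → s ≤ 1 → (1 ≤ s ∨ -Real.log (pE n H) ≤ s * Real.log n) →
    ∀ Λ M : ℝ, 1 ≤ Λ → Λ ≤ 1 + Real.log n → Λ ≤ 3 * M → (1 + Real.log n ≤ Λ ∨
      ∀ z : Fin v, ((H.edgeFinset.filter fun e => z ∈ e).card : ℝ) ≤ Λ) →
    pc n H ≤ K * pE n H * Real.log n * M ^ s := by
  refine ⟨12 * Real.exp 1 ^ 2 * Real.exp 20 * 100, fun n v hn hv H he s hs0 hs1 hs Λ M hΛ1 hΛn hM hw => ?_⟩
  obtain ⟨⟨hq0, hq1⟩, hyp⟩ := pE_spec hv H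
  have hqpos := pE_pos hn hv H he
  set q := pE n H with hq
  set L := Real.log n with hL
  have hn2 : (2 : ℝ) ≤ n := by exact_mod_cast hn
  have hL2 : Real.log 2 ≤ L := Real.log_le_log two_pos hn2
  have hl2 : (1 : ℝ) / 2 < Real.log 2 := by linarith [Real.log_two_gt_d9]
  set l := loss Λ s with hl
  have hl1 : Real.exp 20 ≤ l := one_le_loss hΛ1 hs0
  have hlpos : 0 < l := lt_of_lt_of_le (Real.exp_pos _) hl1
  set p := 12 * (Real.exp 1 ^ 2 * (l * q)) with hp
  set k := Nat.log 2 (n ^ 2) + 1 with hk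
  have hkL : (k : ℝ) ≤ 10 * L := by
    have h1 : ((Nat.log 2 (n ^ 2) : ℕ) : ℝ) * Real.log 2 ≤ 2 * L := by
      have h := Nat.pow_log_le_self 2 (x := n ^ 2) (by positivity)
      have h' : ((2 : ℝ) ^ Nat.log 2 (n ^ 2)) ≤ (n : ℝ) ^ 2 := by exact_mod_cast h
      have := Real.log_le_log (by positivity) h'
      rw [Real.log_pow, Real.log_pow] at this
      exact_mod_cast this
    rw [hk]
    push_cast
    nlinarith [(Nat.log 2 (n ^ 2)).cast_nonneg (α := ℝ)]
  have hk1 : (1 : ℝ) ≤ k := by rw [hk]; push_cast; linarith [(Nat.log 2 (n ^ 2)).cast_nonneg (α := ℝ)]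
  have hbudget : (k : ℝ) * p ≤ 12 * Real.exp 1 ^ 2 * Real.exp 20 * 100 * q * L * M ^ s := by
    have hL0 : 0 < L := by linarith
    have hMs : 0 ≤ M ^ s := Real.rpow_nonneg (by linarith) s
    have hl' : l ≤ Real.exp 20 * (3 * M ^ s) :=
      mul_le_mul_of_nonneg_left (width_rpow_le (by linarith) hM hs0 hs1) (Real.exp_pos _).le
    calc (k : ℝ) * p ≤ (10 * L) * (12 * (Real.exp 1 ^ 2 * (Real.exp 20 * (3 * M ^ s) * q))) := by
          rw [hp]; gcongr
      _ = 12 * Real.exp 1 ^ 2 * Real.exp 20 * 30 * q * L * M ^ s := by ring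
      _ ≤ _ := by gcongr; norm_num
  have hbdd : BddBelow {p : ℝ | p ∈ Set.Icc 0 1 ∧ 1 / 2 ≤ containProb n p H} :=
    ⟨0, fun p hp => hp.1.1⟩
  by_cases hp1 : p ≤ 1
  swap
  · refine le_trans (csInf_le hbdd ⟨⟨zero_le_one, le_rfl⟩, ?_⟩) (le_trans ?_ hbudget)
    · rw [containProb_one hv H]; norm_num
    · nlinarith [not_le.1 hp1]
  have hqe : Real.exp 1 * q ≤ 1 := by
    have h1 : 1 ≤ l := le_trans (Real.one_le_exp (by norm_num)) hl1
    have h2 : Real.exp 1 ≤ 12 * Real.exp 1 ^ 2 * l := by
      have : (1 : ℝ) ≤ Real.exp 1 := Real.one_le_exp zero_le_one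
      have := one_le_mul_of_one_le_of_one_le this h1
      nlinarith
    calc Real.exp 1 * q ≤ 12 * Real.exp 1 ^ 2 * l * q := mul_le_mul_of_nonneg_right h2 hq0
      _ = p := by rw [hp]; ring
      _ ≤ 1 := hp1
  obtain ⟨e0, he0⟩ := SimpleGraph.edgeSet_nonempty.2 he
  have hspread := copies_spread hn hv hqpos hqe H e0.out.1 hyp hs0 hs hΛ1 hΛn hw
  haveI : Nonempty (Fin v ↪ Fin n) := ⟨Fin.castLEEmb hv⟩
  have hppos : 0 < p := by positivity
  have hsize : ∀ π : Fin v ↪ Fin n, (copyEdges H π).card < 2 ^ k := by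
    intro π
    refine lt_of_le_of_lt (card_le_univ _) ?_
    rw [Sym2.card_subtype_not_diag, Fintype.card_fin]
    refine lt_of_le_of_lt ?_ (Nat.lt_pow_succ_log_self one_lt_two (n ^ 2))
    exact (Nat.choose_le_pow n 2)
  have hhit := spread_hit (R := 1 / (Real.exp 1 ^ 2 * (l * q))) hppos hp1 (by positivity)
    (le_of_eq (by rw [hp]; field_simp)) (copyEdges H) k hsize hspread
  have hb := bias_le hp1 k
  have hb01 : bias p k ∈ Set.Icc (0 : ℝ) 1 := by
    have h1 : 0 ≤ (1 - p) ^ k := pow_nonneg (by linarith) k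
    have h2 : (1 - p) ^ k ≤ 1 := pow_le_one₀ (by linarith) (by linarith)
    constructor <;> simp only [bias] <;> linarith
  refine le_trans (csInf_le hbdd ⟨hb01, ?_⟩) (hb.trans hbudget)
  refine hhit.trans ((Ex_mono (g := fun x => if H.IsContained (toGraph x) then (1 : ℝ) else 0)
    hb01.1 hb01.2 fun x => ?_).trans (le_of_eq ?_))
  · split_ifs with h1 h2 <;> try norm_num
    obtain ⟨π, hπ⟩ := h1
    exact h2 (contained_of_copy H π x hπ)
  · rw [← sum_graph_eq _ fun G => if H.IsContained G then (1 : ℝ) else 0]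
    exact sum_congr rfl fun G _ => by rw [mul_ite, mul_one, mul_zero]

end Vale.Agent.P064
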