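import Vale.Agent.P064.Basic

/-! Extensions inside a dense chunk: clusters and propagation. -/

set_option linter.unusedSectionVars false

namespace Vale.Agent.P064

open Finset

variable {α V : Type*} [Fintype α] [DecidableEq α] [Fintype V] [DecidableEq V]
variable (C : Setup α V)

/-- Every strictly intermediate set expects at most one extension, with margin. -/
def Setup.Margin (W T : Finset α) : Prop :=
  ∀ P, W ⊂ P → P ⊆ T →
    (C.n : ℝ) ^ (T \ P).card * (Real.exp 1 * C.q) ^ (C.new P T).card ≤ 1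

variable {C}

lemma Setup.Hyp.n1 (h : C.Hyp) : (1 : ℝ) ≤ C.n :=
  Nat.one_le_cast.2 (le_trans one_le_two h.nn)

lemma Setup.Hyp.q1 (h : C.Hyp) : C.q ≤ 1 := by
  nlinarith [h.qe, h.q0, Real.add_one_le_exp (1 : ℝ)]

/-- Extensions of a fixed map all lie in a small set of host edges. -/
lemma Setup.cluster (h : C.Hyp) {W P T : Finset α} (hm : C.Margin W T) (hWP : W ⊂ P)
    (hPT : P ⊆ T) {φ : α → V} :
    ∃ E : Finset (Sym2 V), (∀ g ∈ C.ext P T φ, ∀ e ∈ C.new P T, e.map g ∈ E)
      ∧ (E.card : ℝ) ≤ 1 + (C.roots P T).card * Real.log C.n := by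
  classical
  have hn1 := h.n1
  have hn0 : (0 : ℝ) < C.n := by linarith
  set x := Real.exp 1 * C.q with hx
  have hx0 : 0 < x := mul_pos (Real.exp_pos 1) h.q0
  set good := fun U : Finset V × Finset (Sym2 V) => U.2 ⊆ C.EH
    ∧ (C.roots P T).image φ ⊆ U.1 ∧ (∀ e ∈ U.2, ∀ a ∈ e, a ∈ U.1)
    ∧ (C.n : ℝ) ^ U.1.card * x ^ U.2.card ≤ (C.n : ℝ) ^ (C.roots P T).card with hgood
  have hne : (univ.filter good).Nonempty := by
    refine ⟨((C.roots P T).image φ, ∅), mem_filter.2 ⟨mem_univ _, empty_subset _, subset_rfl,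
      by simp, ?_⟩⟩
    simp only [card_empty, pow_zero, mul_one]
    exact pow_le_pow_right₀ hn1 card_image_le
  obtain ⟨⟨A, E⟩, hU, hmax⟩ := exists_max_image (univ.filter good) (fun U => U.2.card) hne
  obtain ⟨-, hEH, hRA, hEA, hbound⟩ := mem_filter.1 hU
  simp only at hEH hRA hEA hbound hmax
  refine ⟨E, ?_, ?_⟩
  · by_contra hc
    simp only [not_forall] at hc
    obtain ⟨g, hg, e, he, heE⟩ := hc
    obtain ⟨hgT, hgP⟩ := mem_ext.1 hg
    set S := (T \ P).filter (fun a => g a ∈ A) with hS
    set N := (T \ P) \ S with hN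
    set A' := A ∪ N.image g with hA'
    set E' := E ∪ (C.new P T).image (fun e => e.map g) with hE'
    have hPS : P ∪ S ⊆ T := union_subset hPT ((filter_subset _ _).trans sdiff_subset)
    have hTPS : T \ (P ∪ S) = N := by
      rw [hN, sdiff_sdiff_left, ← sup_eq_union]
    have hgA : ∀ b ∈ T \ P, g b ∈ A' := by
      intro b hb
      by_cases hbA : g b ∈ A
      · exact mem_union_left _ hbA
      · exact mem_union_right _ (mem_image_of_mem _
          (mem_sdiff.2 ⟨hb, fun h => hbA (mem_filter.1 h).2⟩))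
    have hends : ∀ e ∈ E', ∀ a ∈ e, a ∈ A' := by
      intro z hz a ha
      rcases mem_union.1 hz with hz | hz
      · exact mem_union_left _ (hEA z hz a ha)
      · obtain ⟨e', he', rfl⟩ := mem_image.1 hz
        obtain ⟨b, hb, rfl⟩ := Sym2.mem_map.1 ha
        have hbT := (mem_D.1 (mem_new.1 he').1).2 b hb
        by_cases hbP : b ∈ P
        · rw [hgP b hbP]
          exact mem_union_left _ (hRA (mem_image_of_mem _
            (mem_filter.2 ⟨hbP, e', he', hb⟩)))
        · exact hgA b (mem_sdiff.2 ⟨hbT, hbP⟩)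
    have hsubnew : C.new (P ∪ S) T ⊆ C.new P T := new_anti subset_union_left
    have hd : E.card + (C.new (P ∪ S) T).card ≤ E'.card := by
      have hinj : ((C.new (P ∪ S) T).image (fun e => e.map g)).card
          = (C.new (P ∪ S) T).card :=
        card_image_of_injOn fun e he e' he' => map_injOn hgT e (mem_new.1 he).1 e' (mem_new.1 he').1
      have hdis : Disjoint E ((C.new (P ∪ S) T).image (fun e => e.map g)) := by
        rw [disjoint_right]
        intro z hz hzE
        obtain ⟨e', he', rfl⟩ := mem_image.1 hz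
        obtain ⟨heT, b, hb, hbPS⟩ := mem_new.1 he'
        have hgb : g b ∈ A := hEA _ hzE _ (Sym2.mem_map.2 ⟨b, hb, rfl⟩)
        refine hbPS (mem_union_right _ (mem_filter.2 ⟨mem_sdiff.2 ⟨(mem_D.1 heT).2 b hb, ?_⟩, hgb⟩))
        exact fun hbP => hbPS (mem_union_left _ hbP)
      rw [← hinj, ← card_union_of_disjoint hdis]
      exact card_le_card (union_subset_union_right (image_subset_image hsubnew))
    have hlt : E.card < E'.card :=
      card_lt_card (ssubset_iff_of_subset subset_union_left |>.2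
        ⟨e.map g, mem_union_right _ (mem_image_of_mem _ he), heE⟩)
    have hA'card : A'.card ≤ A.card + N.card :=
      (card_union_le _ _).trans (Nat.add_le_add_left card_image_le _)
    have hfac : (C.n : ℝ) ^ N.card * x ^ (C.new (P ∪ S) T).card ≤ 1 := by
      have := hm (P ∪ S) (hWP.trans_subset subset_union_left) hPS
      rwa [hTPS] at this
    have hmem : (A', E') ∈ univ.filter good := by
      refine mem_filter.2 ⟨mem_univ _, union_subset hEH ?_, hRA.trans subset_union_left, hends, ?_⟩
      · intro z hz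
        obtain ⟨e', he', rfl⟩ := mem_image.1 hz
        exact (mem_emb.1 hgT).2.2 e' (mem_new.1 he').1
      · calc (C.n : ℝ) ^ A'.card * x ^ E'.card
            ≤ (C.n : ℝ) ^ (A.card + N.card) * x ^ (E.card + (C.new (P ∪ S) T).card) :=
              mul_le_mul (pow_le_pow_right₀ hn1 hA'card)
                (pow_le_pow_of_le_one hx0.le h.qe hd) (by positivity) (by positivity)
          _ = (C.n : ℝ) ^ A.card * x ^ E.card
              * ((C.n : ℝ) ^ N.card * x ^ (C.new (P ∪ S) T).card) := by
              rw [pow_add, pow_add]; ring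
          _ ≤ (C.n : ℝ) ^ (C.roots P T).card * 1 :=
              mul_le_mul hbound hfac (by positivity) (by positivity)
          _ = _ := mul_one _
    have := hmax _ hmem
    simp only at this
    omega
  · have hone := h.hyp A E hEH hEA {1}
      (fun σ hσ => by rw [mem_singleton] at hσ; subst hσ; simp)
      (fun σ hσ τ hτ _ => by rw [mem_singleton.1 hσ, mem_singleton.1 hτ])
    simp only [card_singleton, Nat.cast_one] at hone
    have e1 : Real.exp E.card ≤ 2 * (C.n : ℝ) ^ (C.roots P T).card := by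
      have hk : Real.exp E.card = Real.exp 1 ^ E.card := by
        rw [← Real.exp_nat_mul, mul_one]
      have := mul_le_mul_of_nonneg_left hone (Real.exp_pos (E.card : ℝ)).le
      rw [mul_one] at this
      refine this.trans ?_
      rw [hk]
      calc Real.exp 1 ^ E.card * (2 * (C.n : ℝ) ^ A.card * C.q ^ E.card)
          = 2 * ((C.n : ℝ) ^ A.card * x ^ E.card) := by rw [hx, mul_pow]; ring
        _ ≤ _ := by linarith
    have e2 := Real.log_le_log (Real.exp_pos _) e1
    rw [Real.log_exp, Real.log_mul two_ne_zero (by positivity), Real.log_pow] at e2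
    have : Real.log 2 ≤ 1 := by
      have := Real.log_le_sub_one_of_pos (show (0 : ℝ) < 2 by norm_num)
      linarith
    linarith

/-- A partial embedding with an extension always has a root. -/
lemma Setup.roots_nonempty (h : C.Hyp) {W P T : Finset α} (hm : C.Margin W T) (hWP : W ⊂ P)
    (hPT : P ⊆ T) (hne : P ≠ T) {φ g : α → V} (hg : g ∈ C.ext P T φ) :
    (C.roots P T).Nonempty := by
  classical
  by_contra hR
  obtain ⟨hgT, -⟩ := mem_ext.1 hg
  have hy : 0 < (T \ P).card :=
    card_pos.2 (sdiff_nonempty.2 fun h' => hne (subset_antisymm hPT h'))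
  have hends : ∀ z ∈ (C.new P T).image (fun e => e.map g), ∀ a ∈ z, a ∈ (T \ P).image g := by
    intro z hz a ha
    obtain ⟨e, he, rfl⟩ := mem_image.1 hz
    obtain ⟨b, hb, rfl⟩ := Sym2.mem_map.1 ha
    refine mem_image_of_mem _ (mem_sdiff.2 ⟨(mem_D.1 (mem_new.1 he).1).2 b hb, fun hbP => ?_⟩)
    exact hR ⟨b, mem_filter.2 ⟨hbP, e, he, hb⟩⟩
  have hone := h.hyp _ _ (fun z hz => by
      obtain ⟨e, he, rfl⟩ := mem_image.1 hz
      exact (mem_emb.1 hgT).2.2 e (mem_new.1 he).1) hends {1}
    (fun σ hσ => by rw [mem_singleton] at hσ; subst hσ; simp)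
    (fun σ hσ τ hτ _ => by rw [mem_singleton.1 hσ, mem_singleton.1 hτ])
  rw [card_image_of_injOn fun e he e' he' =>
      map_injOn hgT e (mem_new.1 he).1 e' (mem_new.1 he').1,
    card_image_of_injOn fun a ha b hb => (mem_emb.1 hgT).2.1 a (mem_sdiff.1 ha).1 b
      (mem_sdiff.1 hb).1, card_singleton, Nat.cast_one] at hone
  have hmP := hm P hWP hPT
  have hn : (2 : ℝ) ≤ C.n := by exact_mod_cast h.nn
  by_cases hr : (C.new P T).card = 0
  · rw [hr, pow_zero, mul_one] at hmP
    have := one_lt_pow₀ (show (1 : ℝ) < C.n by linarith) hy.ne'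
    linarith
  · rw [mul_pow] at hmP
    have he : (2 : ℝ) < Real.exp 1 ^ (C.new P T).card :=
      lt_of_lt_of_le (by linarith [Real.exp_one_gt_d9]) (le_self_pow₀ (by
        linarith [Real.exp_one_gt_d9]) hr)
    have h0 : 0 < (C.n : ℝ) ^ (T \ P).card * C.q ^ (C.new P T).card :=
      mul_pos (pow_pos (by linarith) _) (pow_pos h.q0 _)
    nlinarith

/-- Each further vertex of a chunk costs a new edge. -/
lemma Setup.reach (h : C.Hyp) {W T : Finset α} (hm : C.Margin W T) {g : α → V}
    (hg : g ∈ C.emb T) :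
    ∀ k P, (T \ P).card = k → W ⊂ P → P ⊆ T → (T \ P).card ≤ (C.new P T).card := by
  intro k
  induction k using Nat.strong_induction_on with
  | _ k ih =>
    intro P hk hWP hPT
    by_cases hne : P = T
    · subst hne; simp
    obtain ⟨w, hw⟩ := roots_nonempty h hm hWP hPT hne
      (mem_ext.2 ⟨hg, fun a _ => rfl⟩ : g ∈ C.ext P T g)
    obtain ⟨hwP, e, he, hwe⟩ := mem_filter.1 hw
    obtain ⟨b, hb, heq, -⟩ := other_end hwP he hwe
    have hP' : insert b P ⊆ T := insert_subset (mem_sdiff.1 hb).1 hPT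
    have hcard : (T \ insert b P).card + 1 = (T \ P).card := by
      rw [sdiff_insert, card_erase_of_mem hb]
      have := card_pos.2 ⟨b, hb⟩
      omega
    have hlt : (C.new (insert b P) T).card < (C.new P T).card := by
      refine card_lt_card ((ssubset_iff_of_subset (new_anti (subset_insert b P))).2 ⟨e, he, ?_⟩)
      intro he'
      obtain ⟨-, a, ha, haP⟩ := mem_new.1 he'
      rw [heq, Sym2.mem_iff] at ha
      rcases ha with rfl | rfl
      · exact haP (mem_insert_of_mem hwP)
      · exact haP (mem_insert_self _ _)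
    have := ih _ (by omega) (insert b P) rfl (hWP.trans_subset (subset_insert b P)) hP'
    omega

/-- Grow `P` through all roots of degree at most `θ`, inside a given set of host edges. -/
lemma Setup.closure (C : Setup α V) (T : Finset α) (θ : ℕ) :
    ∀ k P, (T \ P).card = k → P ⊆ T →
      ∃ P', P ⊆ P' ∧ P' ⊆ T ∧ (∀ w ∈ P', (C.nbr P' T w).card = 0 ∨ θ < (C.nbr P' T w).card) ∧
        ∀ φ : α → V, ∀ Av : Finset (Sym2 V),
          (∀ g ∈ C.ext P T φ, ∀ e ∈ C.new P T, e.map g ∈ Av) →
          ∀ M : ℝ, 0 ≤ M → (∀ ψ, (((C.ext P' T ψ).card : ℝ)) ≤ M) →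
          ((C.ext P T φ).card : ℝ)
            ≤ (θ : ℝ) ^ (P' \ P).card * (Av.card.choose (P' \ P).card) * M := by
  classical
  intro k
  induction k using Nat.strong_induction_on with
  | _ k ih =>
    intro P hk hPT
    by_cases hw : ∃ w ∈ P, 0 < (C.nbr P T w).card ∧ (C.nbr P T w).card ≤ θ
    swap
    · refine ⟨P, subset_rfl, hPT, fun w hwP => ?_, fun φ Av _ M _ hM => ?_⟩
      · by_contra hc
        rw [not_or, not_lt] at hc
        exact hw ⟨w, hwP, Nat.pos_of_ne_zero hc.1, hc.2⟩
      · simpa using hM φ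
    obtain ⟨w, hwP, hd0, hdθ⟩ := hw
    set N := C.nbr P T w with hN
    have hNsub : N ⊆ T \ P := filter_subset _ _
    set P1 := P ∪ N with hP1
    have hP1T : P1 ⊆ T := union_subset hPT (hNsub.trans sdiff_subset)
    have hdisj : Disjoint P N := disjoint_left.2 fun a ha hb => (mem_sdiff.1 (hNsub hb)).2 ha
    have hlt : (T \ P1).card < k := by
      rw [← hk, hP1, card_sdiff_add_sdiff (subset_union_left (s₂ := N)) hP1T,
        union_sdiff_left, sdiff_eq_self_of_disjoint hdisj.symm]
      omega
    obtain ⟨P', hsub, hP'T, hstab, hP'⟩ := ih _ hlt P1 rfl hP1T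
    refine ⟨P', subset_union_left.trans hsub, hP'T, hstab, fun φ Av hAv M hM0 hM => ?_⟩
    set star := Av.filter (fun z => φ w ∈ z) with hstar
    set Nb := univ.filter (fun z : V => s(φ w, z) ∈ star) with hNb
    have hNb' : Nb.card ≤ star.card :=
      card_le_card_of_injOn (fun z => s(φ w, z)) (fun z hz => (mem_filter.1 hz).2)
        (fun a _ b _ hab => Sym2.congr_right.1 hab)
    have hb : (P' \ P).card = N.card + (P' \ P1).card := by
      rw [card_sdiff_add_sdiff (subset_union_left (s₂ := N)) hsub, union_sdiff_left,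
        sdiff_eq_self_of_disjoint hdisj.symm]
    set b1 := (P' \ P1).card with hb1
    have hwT := hPT hwP
    -- each possible restriction has few extensions
    have hfib : ∀ g0 ∈ C.ext P T φ, (((C.ext P T φ).filter
        fun g => C.res P1 g = C.res P1 g0).card : ℝ)
        ≤ (θ : ℝ) ^ b1 * ((Av.card - star.card).choose b1) * M := by
      intro g0 hg0
      obtain ⟨hg0T, hg0P⟩ := mem_ext.1 hg0
      have hsubf : ((C.ext P T φ).filter fun g => C.res P1 g = C.res P1 g0)
          ⊆ C.ext P1 T (C.res P1 g0) := by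
        intro g hg
        obtain ⟨hg, heq⟩ := mem_filter.1 hg
        exact mem_ext.2 ⟨(mem_ext.1 hg).1, fun a ha => by rw [← heq, res_eq ha]⟩
      refine le_trans (Nat.cast_le.2 (card_le_card hsubf)) ?_
      have hAvcard : (Av \ star).card = Av.card - star.card :=
        card_sdiff_of_subset (filter_subset _ _)
      rw [← hAvcard]
      refine hP' _ _ (fun g hg e he => ?_) M hM0 hM
      obtain ⟨hgT, hgP1⟩ := mem_ext.1 hg
      have hgP : ∀ a ∈ P, g a = φ a := fun a ha => by
        rw [hgP1 a (mem_union_left _ ha), res_eq (mem_union_left _ ha), hg0P a ha]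
      refine mem_sdiff.2 ⟨hAv g (mem_ext.2 ⟨hgT, hgP⟩) e (new_anti subset_union_left he),
        fun hz => ?_⟩
      obtain ⟨a, hae, haw⟩ := Sym2.mem_map.1 (mem_filter.1 hz).2
      rw [← hgP w hwP] at haw
      have : a = w := (mem_emb.1 hgT).2.1 a ((mem_D.1 (mem_new.1 he).1).2 a hae) w hwT haw
      rw [this] at hae
      obtain ⟨c, hc, rfl, -⟩ := other_end (mem_union_left _ hwP) he hae
      obtain ⟨hcT, hcP1⟩ := mem_sdiff.1 hc
      exact hcP1 (mem_union_right _ (mem_filter.2
        ⟨mem_sdiff.2 ⟨hcT, fun h => hcP1 (mem_union_left _ h)⟩,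
          (mem_D.1 (mem_new.1 he).1).1⟩))
    -- few possible restrictions
    have himg : ((C.ext P T φ).image (C.res P1)).card ≤ Nb.card.descFactorial N.card := by
      have hne : ((C.ext P T φ).image (C.res P1)).card
          ≤ (univ.filter fun F : {a // a ∈ N} → V => Function.Injective F
              ∧ ∀ a, F a ∈ Nb).card := by
        refine card_le_card_of_injOn (fun f a => f a.1) (fun f hf => ?_) (fun f hf f' hf' h => ?_)
        · obtain ⟨g, hg, rfl⟩ := mem_image.1 hf
          obtain ⟨hgT, hgP⟩ := mem_ext.1 hg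
          simp only [mem_coe, mem_filter, mem_univ, true_and]
          refine ⟨fun a b hab => ?_, fun a => ?_⟩
          · simp only [] at hab; rw [res_eq (show a.1 ∈ P1 from mem_union_right P a.2),
              res_eq (show b.1 ∈ P1 from mem_union_right P b.2)] at hab
            exact Subtype.ext ((mem_emb.1 hgT).2.1 a.1 (mem_sdiff.1 (hNsub a.2)).1 b.1
              (mem_sdiff.1 (hNsub b.2)).1 hab)
          · obtain ⟨haTP, haE⟩ := mem_filter.1 a.2
            obtain ⟨haT, haP⟩ := mem_sdiff.1 haTP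
            have he : s(w, a.1) ∈ C.new P T := by
              refine mem_new.2 ⟨mem_D.2 ⟨haE, fun c hc => ?_⟩, a.1, Sym2.mem_mk_right w a.1, haP⟩
              rcases Sym2.mem_iff.1 hc with rfl | rfl
              · exact hwT
              · exact haT
            have := hAv g hg _ he
            rw [Sym2.map_mk, hgP w hwP] at this
            rw [res_eq (show a.1 ∈ P1 from mem_union_right P a.2)]
            exact mem_filter.2 ⟨mem_univ _, mem_filter.2 ⟨this, Sym2.mem_mk_left _ _⟩⟩
        · obtain ⟨g, hg, rfl⟩ := mem_image.1 hf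
          obtain ⟨g', hg', rfl⟩ := mem_image.1 hf'
          funext a
          by_cases ha : a ∈ P1
          · rcases mem_union.1 ha with haP | haN
            · rw [res_eq ha, res_eq ha, (mem_ext.1 hg).2 a haP, (mem_ext.1 hg').2 a haP]
            · exact congrFun h ⟨a, haN⟩
          · simp [Setup.res, ha]
      refine hne.trans ?_
      calc (univ.filter fun F : {a // a ∈ N} → V => Function.Injective F ∧ ∀ a, F a ∈ Nb).card
          ≤ (univ : Finset ({a // a ∈ N} ↪ {z // z ∈ Nb})).card := by
            refine card_le_card_of_surjOn (fun e a => (e a).1) fun F hF => ?_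
            obtain ⟨hinj, hmem⟩ := (mem_filter.1 hF).2
            exact ⟨⟨fun a => ⟨F a, hmem a⟩, fun a b h => hinj (congrArg Subtype.val h)⟩,
              by simp, rfl⟩
        _ = _ := by simp [Fintype.card_embedding_eq]
    have hdesc : (Nb.card.descFactorial N.card : ℝ)
        ≤ (θ : ℝ) ^ N.card * (star.card.choose N.card) := by
      rw [Nat.descFactorial_eq_factorial_mul_choose]
      push_cast
      refine mul_le_mul ?_ (Nat.cast_le.2 (Nat.choose_le_choose _ hNb')) (Nat.cast_nonneg _)
        (by positivity)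
      calc (N.card.factorial : ℝ) ≤ ((N.card ^ N.card : ℕ) : ℝ) :=
            Nat.cast_le.2 (Nat.factorial_le_pow _)
        _ ≤ _ := by push_cast; gcongr
    have hvan : star.card.choose N.card * (Av.card - star.card).choose b1
        ≤ Av.card.choose (N.card + b1) := by
      have hle : star.card ≤ Av.card := card_le_card (filter_subset _ _)
      conv_rhs => rw [← Nat.add_sub_cancel' hle, Nat.add_choose_eq]
      exact single_le_sum (f := fun ij : ℕ × ℕ => star.card.choose ij.1
        * (Av.card - star.card).choose ij.2) (fun _ _ => Nat.zero_le _)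
        (mem_antidiagonal.2 (rfl : (N.card, b1).1 + (N.card, b1).2 = N.card + b1))
    calc ((C.ext P T φ).card : ℝ)
        = ∑ ψ ∈ (C.ext P T φ).image (C.res P1),
            (((C.ext P T φ).filter fun g => C.res P1 g = ψ).card : ℝ) := by
          rw [← Nat.cast_sum, ← card_eq_sum_card_image]
      _ ≤ ∑ ψ ∈ (C.ext P T φ).image (C.res P1),
            (θ : ℝ) ^ b1 * ((Av.card - star.card).choose b1) * M := sum_le_sum fun ψ hψ => by
          obtain ⟨g0, hg0, rfl⟩ := mem_image.1 hψ
          exact hfib g0 hg0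
      _ ≤ (Nb.card.descFactorial N.card : ℝ)
            * ((θ : ℝ) ^ b1 * ((Av.card - star.card).choose b1) * M) := by
          rw [sum_const, nsmul_eq_mul]
          exact mul_le_mul_of_nonneg_right (Nat.cast_le.2 himg) (by positivity)
      _ ≤ (θ : ℝ) ^ N.card * (star.card.choose N.card)
            * ((θ : ℝ) ^ b1 * ((Av.card - star.card).choose b1) * M) :=
          mul_le_mul_of_nonneg_right hdesc (by positivity)
      _ = (θ : ℝ) ^ (N.card + b1)
            * ((star.card.choose N.card * (Av.card - star.card).choose b1 : ℕ) : ℝ) * M := by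
          push_cast; ring
      _ ≤ _ := by
          rw [hb]
          gcongr

/-- The potential of the degree thresholds from `j` up to `K`. -/
noncomputable def Setup.pot (C : Setup α V) (W T : Finset α) (j K : ℕ) : ℝ :=
  ∑ i ∈ Ico j K, (2 : ℝ) ^ i * (T.filter fun a => 2 ^ i < 2 * C.deg W T a).card

lemma Setup.pot_nonneg (C : Setup α V) (W T : Finset α) (j K : ℕ) : 0 ≤ C.pot W T j K :=
  sum_nonneg fun _ _ => by positivity

lemma geom_filter_le (D : ℕ) : ∀ K : ℕ,
    ∑ i ∈ range K, (if 2 ^ i < 2 * D then 2 ^ i else 0) + 1 ≤ max (4 * D) 1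
      ∧ ∑ i ∈ range K, (if 2 ^ i < 2 * D then 2 ^ i else 0) + 1 ≤ 2 ^ K
  | 0 => by simp
  | K + 1 => by
      obtain ⟨h1, h2⟩ := geom_filter_le D K
      rw [sum_range_succ, pow_succ]
      split_ifs with h <;> omega

lemma Setup.pot_le (C : Setup α V) (W T : Finset α) (K : ℕ) :
    C.pot W T 0 K ≤ 8 * (C.new W T).card := by
  have h : ∑ i ∈ range K, 2 ^ i * (T.filter fun a => 2 ^ i < 2 * C.deg W T a).card
      ≤ 8 * (C.new W T).card := by
    simp only [card_filter, mul_sum, mul_ite, mul_one, mul_zero]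
    rw [sum_comm]
    calc ∑ a ∈ T, ∑ i ∈ range K, (if 2 ^ i < 2 * C.deg W T a then 2 ^ i else 0)
        ≤ ∑ a ∈ T, 4 * C.deg W T a := sum_le_sum fun a _ => by
          have := (geom_filter_le (C.deg W T a) K).1
          omega
      _ ≤ _ := by rw [← mul_sum]; linarith [sum_deg_le (C := C) (W := W) (T := T) T]
  rw [Setup.pot, ← range_eq_Ico]
  exact_mod_cast h

lemma Setup.nbr_le_deg {W P T : Finset α} (hWP : W ⊆ P) (hPT : P ⊆ T) {w : α} (hw : w ∈ P) :
    (C.nbr P T w).card ≤ C.deg W T w := by
  refine card_le_card_of_injOn (fun a => s(w, a)) (fun a ha => ?_)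
    (fun a _ b _ h => Sym2.congr_right.1 h)
  obtain ⟨haTP, haE⟩ := mem_filter.1 ha
  obtain ⟨haT, haP⟩ := mem_sdiff.1 haTP
  refine mem_filter.2 ⟨mem_new.2 ⟨mem_D.2 ⟨haE, fun c hc => ?_⟩, a, Sym2.mem_mk_right w a,
    fun h => haP (hWP h)⟩, Sym2.mem_mk_left w a⟩
  rcases Sym2.mem_iff.1 hc with rfl | rfl
  · exact hPT hw
  · exact haT

/-- The pinned extension bound. -/
theorem Setup.pinned (h : C.Hyp) {W T : Finset α} (hm : C.Margin W T) {Λ : ℝ}
    (hΛ : 1 + Real.log C.n ≤ Λ) :
    ∀ k j, 2 * T.card - j = k → ∀ P, W ⊂ P → P ⊆ T →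
      (∀ w ∈ P, (C.nbr P T w).card = 0 ∨ 2 ^ j < 2 * (C.nbr P T w).card) →
      ∀ φ, ((C.ext P T φ).card : ℝ)
        ≤ Λ ^ (T \ P).card * Real.exp (C.pot W T j (2 * T.card)) := by
  intro k
  have hlog : 0 ≤ Real.log C.n := Real.log_nonneg h.n1
  have hΛ1 : 1 ≤ Λ := by linarith
  induction k using Nat.strong_induction_on with
  | _ k ih =>
    intro j hk P hWP hPT hstab φ
    have hpos : 1 ≤ Λ ^ (T \ P).card * Real.exp (C.pot W T j (2 * T.card)) :=
      one_le_mul_of_one_le_of_one_le (one_le_pow₀ hΛ1) (Real.one_le_exp (C.pot_nonneg _ _ _ _))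
    rcases ext_eq_empty_or (C := C) (P := P) (T := T) (φ := φ) with h0 | ⟨g, hg⟩
    · rw [h0]; simp only [card_empty, Nat.cast_zero]; linarith
    by_cases hne : P = T
    · subst hne
      refine le_trans ?_ hpos
      exact_mod_cast ext_self_card P φ
    set R := C.roots P T with hRdef
    have hRne : R.Nonempty := roots_nonempty h hm hWP hPT hne hg
    have hRsub : R ⊆ T.filter (fun a => 2 ^ j < 2 * C.deg W T a) := by
      intro w hw
      obtain ⟨hwP, hd⟩ := (mem_roots hPT).1 hw
      have h1 := nbr_le_deg (C := C) hWP.subset hPT hwP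
      refine mem_filter.2 ⟨hPT hwP, ?_⟩
      rcases hstab w hwP with h2 | h2 <;> omega
    have hjK : j < 2 * T.card := by
      by_contra hjK
      obtain ⟨w, hw⟩ := hRne
      obtain ⟨hwP, hd⟩ := (mem_roots hPT).1 hw
      have h1 : (C.nbr P T w).card ≤ T.card := card_le_card ((filter_subset _ _).trans sdiff_subset)
      have h3 : j < 2 ^ j := Nat.lt_two_pow_self
      rcases hstab w hwP with h2 | h2 <;> omega
    obtain ⟨E, hEmem, hEcard⟩ := cluster h hm hWP hPT (φ := φ)
    obtain ⟨P', hsub, hP'T, hstab', hcl⟩ := closure C T (2 ^ j) _ P rfl hPT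
    set b := (P' \ P).card with hb
    have hrec : ∀ ψ, ((C.ext P' T ψ).card : ℝ)
        ≤ Λ ^ (T \ P').card * Real.exp (C.pot W T (j + 1) (2 * T.card)) := fun ψ =>
      ih (2 * T.card - (j + 1)) (by omega) (j + 1) rfl P' (hWP.trans_subset hsub) hP'T
        (fun w hw => (hstab' w hw).imp id fun h' => by rw [pow_succ]; omega) ψ
    refine (hcl φ E hEmem _ (by positivity) hrec).trans ?_
    have hm' : (E.card : ℝ) ≤ R.card * Λ := by
      refine hEcard.trans ?_
      have : (1 : ℝ) ≤ R.card := by exact_mod_cast hRne.card_pos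
      have := mul_le_mul_of_nonneg_left hΛ (Nat.cast_nonneg (α := ℝ) R.card)
      linarith
    have hV : (R.card : ℝ) ≤ (T.filter fun a => 2 ^ j < 2 * C.deg W T a).card :=
      Nat.cast_le.2 (card_le_card hRsub)
    have hcore : ((2 ^ j : ℕ) : ℝ) ^ b * (E.card.choose b)
        ≤ Λ ^ b * Real.exp ((2 : ℝ) ^ j * (T.filter fun a => 2 ^ j < 2 * C.deg W T a).card) := by
      calc ((2 ^ j : ℕ) : ℝ) ^ b * (E.card.choose b)
          ≤ ((2 : ℝ) ^ j) ^ b * ((E.card : ℝ) ^ b / b.factorial) := by
            push_cast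
            gcongr
            exact Nat.choose_le_pow_div b E.card
        _ ≤ ((2 : ℝ) ^ j) ^ b * ((R.card * Λ) ^ b / b.factorial) := by gcongr
        _ = Λ ^ b * (((2 : ℝ) ^ j * R.card) ^ b / b.factorial) := by ring
        _ ≤ Λ ^ b * Real.exp ((2 : ℝ) ^ j * R.card) := by
            gcongr
            exact Real.pow_div_factorial_le_exp _ (by positivity) b
        _ ≤ _ := by gcongr
    calc ((2 ^ j : ℕ) : ℝ) ^ b * (E.card.choose b)
          * (Λ ^ (T \ P').card * Real.exp (C.pot W T (j + 1) (2 * T.card)))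
        ≤ Λ ^ b * Real.exp ((2 : ℝ) ^ j * (T.filter fun a => 2 ^ j < 2 * C.deg W T a).card)
          * (Λ ^ (T \ P').card * Real.exp (C.pot W T (j + 1) (2 * T.card))) :=
          mul_le_mul_of_nonneg_right hcore (by positivity)
      _ = _ := by
          rw [card_sdiff_add_sdiff hsub hP'T, pow_add, ← hb, Setup.pot, Setup.pot,
            Finset.sum_eq_sum_Ico_succ_bot hjK, Real.exp_add]
          ring

end Vale.Agent.P064
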