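import Vale.Agent.P064.Graph

/-! The modified expectation threshold. -/

set_option linter.unusedSectionVars false

namespace Vale.Agent.P064

open Finset Vale.Agent.P063

variable {n v : ℕ}

/-- A subgraph of the complete graph seen inside a graph containing its edges. -/
def liftSub {G : SimpleGraph (Fin n)} (B : (⊤ : SimpleGraph (Fin n)).Subgraph)
    (h : ∀ c d, B.Adj c d → G.Adj c d) : G.Subgraph where
  verts := B.verts
  Adj := B.Adj
  adj_sub h' := h _ _ h'
  edge_vert h' := B.edge_vert h'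
  symm := B.symm

/-- The lift is isomorphic to the original. -/
def liftIso {G : SimpleGraph (Fin n)} (B : (⊤ : SimpleGraph (Fin n)).Subgraph)
    (h : ∀ c d, B.Adj c d → G.Adj c d) : B.coe ≃g (liftSub B h).coe :=
  ⟨Equiv.refl _, Iff.rfl⟩

lemma le_copyCount {V W ι : Type} [Fintype V] (G : SimpleGraph V) (F : SimpleGraph W)
    (t : Finset ι) (f : ι → G.Subgraph) (hf : ∀ i ∈ t, Nonempty (F ≃g (f i).coe))
    (hinj : ∀ i ∈ t, ∀ j ∈ t, f i = f j → i = j) : t.card ≤ G.copyCount F := by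
  classical
  rw [SimpleGraph.copyCount]
  refine card_le_card_of_injOn f (fun i hi => ?_) hinj
  simp only [mem_coe, mem_filter, mem_univ, true_and]
  exact hf i hi

lemma copyCount_le {V W ι : Type} [Fintype V] (G : SimpleGraph V) (F : SimpleGraph W)
    (t : Finset ι) (f : G.Subgraph → ι) (hf : ∀ B, Nonempty (F ≃g B.coe) → f B ∈ t)
    (hinj : ∀ B B', Nonempty (F ≃g B.coe) → Nonempty (F ≃g B'.coe) → f B = f B' → B = B') :
    G.copyCount F ≤ t.card := by
  classical
  rw [SimpleGraph.copyCount]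
  refine card_le_card_of_injOn f (fun B hB => hf B ?_) (fun B hB B' hB' h => hinj B B' ?_ ?_ h)
  all_goals simp_all

open scoped Classical in
lemma expCopies_ge {q : ℝ} (hq : 0 ≤ q) (hq1 : q ≤ 1) {W : Type} (F : SimpleGraph W) :
    ∑ B ∈ univ.filter (fun B : (⊤ : SimpleGraph (Fin n)).Subgraph => Nonempty (F ≃g B.coe)),
      q ^ (univ.filter (fun z : Pair n => z.1 ∈ B.edgeSet)).card ≤ expCopies n q F := by
  rw [expCopies, sum_graph_eq q fun G => ((G.copyCount F : ℕ) : ℝ)]
  set inst := univ.filter (fun B : (⊤ : SimpleGraph (Fin n)).Subgraph => Nonempty (F ≃g B.coe))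
    with hinst
  have h1 : ∀ B ∈ inst, q ^ (univ.filter (fun z : Pair n => z.1 ∈ B.edgeSet)).card
      = Ex q (fun x : Pair n → Bool =>
          if ∀ z : Pair n, z.1 ∈ B.edgeSet → x z = true then (1 : ℝ) else 0) := by
    intro B _
    rw [← Ex_all]
    refine Ex_congr fun x => ?_
    split_ifs with h
    · exact prod_eq_one fun z hz => if_pos (h z (mem_filter.1 hz).2)
    · simp only [not_forall] at h
      obtain ⟨z, hz, hx⟩ := h
      exact prod_eq_zero (mem_filter.2 ⟨mem_univ z, hz⟩) (if_neg hx)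
  rw [sum_congr rfl h1, ← Ex_sum]
  refine Ex_mono hq hq1 fun x => ?_
  rw [sum_boole]
  refine Nat.cast_le.2 ?_
  have hadj : ∀ B ∈ inst.filter (fun B => ∀ z : Pair n, z.1 ∈ B.edgeSet → x z = true),
      ∀ c d, B.Adj c d → (toGraph x).Adj c d := by
    intro B hB c d hcd
    have hd : ¬ (s(c, d) : Sym2 (Fin n)).IsDiag := by
      rw [Sym2.mk_isDiag_iff]; exact hcd.ne
    rw [← SimpleGraph.mem_edgeSet, mem_toGraph]
    exact ⟨hd, (mem_filter.1 hB).2 ⟨s(c, d), hd⟩ hcd⟩
  rw [← card_attach]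
  refine le_copyCount (toGraph x) F _ (fun B => liftSub B.1 (hadj B.1 B.2)) (fun B _ => ?_)
    fun a _ b _ hab => Subtype.ext ?_
  · obtain ⟨e⟩ := (mem_filter.1 (mem_filter.1 B.2).1).2
    exact ⟨e.trans (liftIso B.1 (hadj B.1 B.2))⟩
  · exact SimpleGraph.Subgraph.ext
      (congrArg SimpleGraph.Subgraph.verts hab :) (congrArg SimpleGraph.Subgraph.Adj hab :)

/-- A placement as a homomorphism to the complete graph. -/
def placeHom (H : SimpleGraph (Fin v)) (π : Fin v ↪ Fin n) :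
    H →g (⊤ : SimpleGraph (Fin n)) :=
  ⟨π, fun {a b} hab => by simpa using hab.ne⟩

lemma iso_place {W : Type} (H : SimpleGraph (Fin v)) (F : SimpleGraph W) (π : Fin v ↪ Fin n)
    (B : H.Subgraph) (hB : Nonempty (F ≃g B.coe)) :
    Nonempty (F ≃g (B.map (placeHom H π)).coe) := by
  obtain ⟨e⟩ := hB
  exact ⟨e.trans ((⟨placeHom H π, π.injective⟩ : SimpleGraph.Copy H ⊤).isoSubgraphMap B)⟩

open scoped Classical in
lemma edges_place (H : SimpleGraph (Fin v)) (π : Fin v ↪ Fin n) (B : H.Subgraph) :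
    univ.filter (fun z : Pair n => z.1 ∈ (B.map (placeHom H π)).edgeSet) ⊆ copyEdges H π := by
  rintro ⟨z, hzd⟩ hz
  have hz' := (mem_filter.1 hz).2
  induction z using Sym2.ind with
  | h a b =>
    rw [SimpleGraph.Subgraph.mem_edgeSet, SimpleGraph.Subgraph.map_adj] at hz'
    obtain ⟨a', b', hab', rfl, rfl⟩ := hz'
    exact mem_filter.2 ⟨mem_univ _, s(a', b'), B.adj_sub hab', Sym2.map_mk _ _ _⟩

lemma map_place_inj (H : SimpleGraph (Fin v)) (π : Fin v ↪ Fin n) {B B' : H.Subgraph}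
    (h : B.map (placeHom H π) = B'.map (placeHom H π)) : B = B' := by
  have hinj : Function.Injective (placeHom H π) := π.injective
  refine SimpleGraph.Subgraph.ext ?_ (funext fun c => funext fun d => ?_)
  · have := congrArg SimpleGraph.Subgraph.verts h
    simp only [SimpleGraph.Subgraph.map_verts] at this
    exact hinj.image_injective this
  · have := congrArg (fun S => S.Adj (placeHom H π c) (placeHom H π d)) h
    simpa [Relation.map_apply, hinj.eq_iff] using this

open scoped Classical in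
/-- Placing `H` maps copies inside `H` to copies in the complete graph. -/
lemma copyCount_place {W : Type} (H : SimpleGraph (Fin v)) (F : SimpleGraph W)
    (T : Finset (Fin v ↪ Fin n)) :
    H.copyCount F * T.card ≤
      ∑ B ∈ univ.filter (fun B : (⊤ : SimpleGraph (Fin n)).Subgraph => Nonempty (F ≃g B.coe)),
        (T.filter fun π => univ.filter (fun z : Pair n => z.1 ∈ B.edgeSet) ⊆ copyEdges H π).card := by
  set inst := univ.filter (fun B : (⊤ : SimpleGraph (Fin n)).Subgraph => Nonempty (F ≃g B.coe))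
    with hinst
  let hom := placeHom (n := n) H
  rw [← card_sigma]
  set cp := univ.filter (fun F' : H.Subgraph => Nonempty (F ≃g F'.coe)) with hcp
  refine le_trans (Nat.mul_le_mul_right _ (copyCount_le H F cp id
    (fun B hB => mem_filter.2 ⟨mem_univ B, hB⟩) fun _ _ _ _ h => h)) ?_
  rw [← card_product]
  refine card_le_card_of_injOn (fun Q => ⟨Q.1.map (hom Q.2), Q.2⟩) (fun Q hQ => ?_)
    fun Q _ Q' _ h => ?_
  · obtain ⟨hQ1, hQ2⟩ := mem_product.1 hQ
    exact mem_sigma.2 ⟨mem_filter.2 ⟨mem_univ _, iso_place H F Q.2 Q.1 (mem_filter.1 hQ1).2⟩,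
      mem_filter.2 ⟨hQ2, edges_place H Q.2 Q.1⟩⟩
  · obtain ⟨F', π⟩ := Q
    obtain ⟨F'', π'⟩ := Q'
    simp only [Sigma.mk.injEq] at h
    obtain ⟨h1, h2⟩ := h
    have hπ : π = π' := eq_of_heq h2
    subst hπ
    exact Prod.ext (map_place_inj H π h1) rfl

open scoped Classical in
/-- The modified threshold is within a logarithm of the subgraph expectation threshold. -/
theorem pETilde_le : ∃ K : ℝ, ∀ n v : ℕ, 2 ≤ n → v ≤ n → ∀ H : SimpleGraph (Fin v), H ≠ ⊥ →
    ∀ s : ℝ, 0 ≤ s → s ≤ 1 → (1 ≤ s ∨ -Real.log (pE n H) ≤ s * Real.log n) →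
    ∀ Λ M : ℝ, 1 ≤ Λ → Λ ≤ 1 + Real.log n → Λ ≤ 3 * M → (1 + Real.log n ≤ Λ ∨
      ∀ z : Fin v, ((H.edgeFinset.filter fun e => z ∈ e).card : ℝ) ≤ Λ) →
    pETilde n H ≤ K * pE n H * M ^ s := by
  refine ⟨3 * Real.exp 1 ^ 2 * Real.exp 20, fun n v hn hv H he s hs0 hs1 hs Λ M hΛ1 hΛn hM hw => ?_⟩
  obtain ⟨⟨hq0, hq1⟩, hyp⟩ := pE_spec hv H
  have hqpos := pE_pos hn hv H he
  set q := pE n H with hq
  have hn2 : (2 : ℝ) ≤ n := by exact_mod_cast hn
  have hL : (1 : ℝ) / 2 < Real.log n := by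
    linarith [Real.log_two_gt_d9, Real.log_le_log two_pos hn2]
  set l := loss Λ s with hl
  have hl1 : 1 ≤ l :=
    (Real.one_le_exp (by norm_num)).trans (one_le_loss hΛ1 hs0)
  set p := Real.exp 1 ^ 2 * (l * q) with hp
  have hbudget : p ≤ 3 * Real.exp 1 ^ 2 * Real.exp 20 * q * M ^ s := by
    calc p ≤ Real.exp 1 ^ 2 * (Real.exp 20 * (3 * M ^ s) * q) := by
          have := width_rpow_le (zero_le_one.trans hΛ1) hM hs0 hs1
          rw [hp, hl, loss]; gcongr
      _ = _ := by ring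
  have hbdd : BddBelow {p : ℝ | p ∈ Set.Icc 0 1 ∧
      ∀ F : H.Subgraph, (H.copyCount F.coe : ℝ) / 2 ≤ expCopies n p F.coe} :=
    ⟨0, fun p hp => hp.1.1⟩
  haveI : Nonempty (Fin v ↪ Fin n) := ⟨Fin.castLEEmb hv⟩
  have hplace : ∀ (F : H.Subgraph) (r : ℝ), 0 ≤ r → r ≤ 1 → ∀ T : Finset (Fin v ↪ Fin n), T.Nonempty →
      (∀ S : Finset (Pair n), ((T.filter fun π => S ⊆ copyEdges H π).card : ℝ) ≤ r ^ S.card * T.card) →
      (H.copyCount F.coe : ℝ) / 2 ≤ expCopies n r F.coe := by
    intro F r hr0 hr1 T hT hS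
    have h := copyCount_place H F.coe T
    have h' : (H.copyCount F.coe : ℝ) * T.card ≤ expCopies n r F.coe * T.card := by
      refine le_trans (by exact_mod_cast h) (le_trans (sum_le_sum fun B _ => hS _) ?_)
      rw [← sum_mul]
      exact mul_le_mul_of_nonneg_right (expCopies_ge hr0 hr1 F.coe) (Nat.cast_nonneg _)
    have := le_of_mul_le_mul_right h' (Nat.cast_pos.2 hT.card_pos)
    linarith [(H.copyCount F.coe).cast_nonneg (α := ℝ)]
  by_cases hp1 : p ≤ 1
  · refine (csInf_le hbdd ⟨⟨by positivity, hp1⟩, fun F => ?_⟩).trans hbudget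
    refine hplace F p (by positivity) hp1 univ univ_nonempty fun S => ?_
    rcases S.eq_empty_or_nonempty with rfl | hS
    · simp
    have hqe : Real.exp 1 * q ≤ 1 := by
      have : Real.exp 1 ≤ Real.exp 1 ^ 2 * l := by
        have h1 : (1 : ℝ) ≤ Real.exp 1 := Real.one_le_exp zero_le_one
        nlinarith [one_le_mul_of_one_le_of_one_le h1 hl1]
      calc Real.exp 1 * q ≤ Real.exp 1 ^ 2 * l * q := mul_le_mul_of_nonneg_right this hq0
        _ = p := by rw [hp]; ring
        _ ≤ 1 := hp1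
    obtain ⟨e0, he0⟩ := SimpleGraph.edgeSet_nonempty.2 he
    have hs := copies_spread hn hv hqpos hqe H e0.out.1 hyp hs0 hs hΛ1 hΛn hw S hS
    have hlq : 0 < Real.exp 1 ^ 2 * (loss Λ s * q) := by rw [← hl]; positivity
    rw [one_div_pow, mul_one_div, div_le_iff₀ (pow_pos hlq _)] at hs
    rw [card_univ]
    refine hs.trans (le_of_eq ?_)
    rw [hp, hl, mul_comm]
  · refine le_trans (csInf_le hbdd ⟨⟨zero_le_one, le_rfl⟩, fun F => ?_⟩) (le_trans (not_le.1 hp1).le hbudget)
    exact hplace F 1 zero_le_one le_rfl univ univ_nonempty fun S => by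
      rw [one_pow, one_mul]
      exact Nat.cast_le.2 (card_filter_le _ _)

end Vale.Agent.P064
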